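import Vale.Agent.P092.H188.RootA
import Vale.Agent.P092.H933.LocF

/-!
P092 (helper188), [SX-ROOT]: every local field `k` embeds (up to a power of the norm) in a local field
`l` in which all elements of `k` have `n`-th roots.
-/

set_option linter.all false

namespace Vale.Agent.P092.H188

open Vale.Agent.P092.H933 (LocK)

/-- [SX-ROOT] -/
theorem root_loc {k : Type} [NontriviallyNormedField k] [ProperSpace k] (hk : LocK k) {n : ℕ}
    (hn : 1 ≤ n) :
    ∃ (l : Type) (_ : NontriviallyNormedField l) (_ : ProperSpace l), LocK l ∧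
      ∃ φ : k →+* l, (∃ s : ℝ, 0 < s ∧ ∀ x, ‖φ x‖ = ‖x‖ ^ s) ∧ ∀ x, ∃ y : l, y ^ n = φ x := by
  have hc : ∀ (φ : k →+* ℂ), (∀ x, ‖φ x‖ = ‖x‖) →
      ∃ (l : Type) (_ : NontriviallyNormedField l) (_ : ProperSpace l), LocK l ∧
        ∃ φ : k →+* l, (∃ s : ℝ, 0 < s ∧ ∀ x, ‖φ x‖ = ‖x‖ ^ s) ∧ ∀ x, ∃ y : l, y ^ n = φ x :=
    fun φ hφ => ⟨ℂ, inferInstance, inferInstance, LocK.cplx (RingEquiv.refl ℂ) fun _ => rfl, φ,
      ⟨1, one_pos, fun x => by rw [hφ, Real.rpow_one]⟩,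
      fun x => IsAlgClosed.exists_pow_nat_eq _ hn⟩
  cases hk with
  | real φ h =>
    exact hc (Complex.ofRealHom.comp φ.toRingHom) fun x => by
      rw [← h x]
      exact Complex.norm_real _
  | cplx φ h => exact hc φ.toRingHom h
  | ultra h =>
    obtain ⟨l, i1, h1, h2, φ, ⟨s, hs, h3⟩, h4⟩ := root_ultra' (k := k) hn
    exact ⟨l, i1, h1, LocK.ultra h2, φ,
      ⟨s, by exact_mod_cast hs, fun x => by rw [h3, Real.rpow_natCast]⟩, h4⟩

end Vale.Agent.P092.H188
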