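import Vale.Agent.P092.H719.Lat1

/-!
P092 (helper188), [SX-LATP]: a lattice of a topological group `E` with a proper homomorphism `p` to a
finite product of groups `PGL_n(k)`, whose range contains the images of all the factors `SL_n(k)`,
is mapped by `p` onto a lattice of the product; `p` is injective on it if it is ICC.
-/

set_option linter.all false

open MeasureTheory Set Filter Topology TopologicalSpace Matrix

namespace Vale.Agent.P092.H188.LatP

open Vale.Agent.P092.H515.St

/-- the group `PGL_n(k)` (the same as `RC.PG`) -/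
abbrev PG (k : Type) [NontriviallyNormedField k] (n : ℕ) : Type :=
  GL (Fin n) k ⧸ Subgroup.center (GL (Fin n) k)

/-- the class in `PGL_n(k)` of an element of `SL_n(k)` -/
def sl {k : Type} [NontriviallyNormedField k] {n : ℕ} (s : SpecialLinearGroup (Fin n) k) : PG k n :=
  QuotientGroup.mk (SpecialLinearGroup.toGL s)

theorem sl_def {k : Type} [NontriviallyNormedField k] {n : ℕ} (s : SpecialLinearGroup (Fin n) k) :
    sl s = QuotientGroup.mk (SpecialLinearGroup.toGL s) := rfl

section top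

variable (k : Type) [NontriviallyNormedField k] (n : ℕ)

theorem t2_pg : T2Space (PG k n) := by
  have h1 : IsClosed (Subgroup.center (GL (Fin n) k) : Set (GL (Fin n) k)) := by
    rw [Subgroup.coe_center, ← Set.centralizer_univ]
    exact Set.isClosed_centralizer _
  infer_instance

theorem sc_pg [ProperSpace k] : SecondCountableTopology (PG k n) := by
  haveI h0 : SecondCountableTopology (Matrix (Fin n) (Fin n) k) :=
    inferInstanceAs (SecondCountableTopology (Fin n → Fin n → k))
  haveI h2 : SecondCountableTopology (Matrix (Fin n) (Fin n) k)ᵐᵒᵖ :=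
    MulOpposite.opHomeomorph.symm.secondCountableTopology
  haveI h3 : SecondCountableTopology (GL (Fin n) k) :=
    Units.isEmbedding_embedProduct.secondCountableTopology
  infer_instance

theorem lc_pg [ProperSpace k] : LocallyCompactSpace (PG k n) := by
  haveI h0 : LocallyCompactSpace (Matrix (Fin n) (Fin n) k) :=
    inferInstanceAs (LocallyCompactSpace (Fin n → Fin n → k))
  infer_instance

end top

section coc

variable {k : Type} [NontriviallyNormedField k] {n : ℕ}

theorem exists_sl (g : GL (Fin n) k) (h : g.1.det = 1) :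
    ∃ s : SpecialLinearGroup (Fin n) k, (QuotientGroup.mk g : PG k n) = sl s :=
  ⟨⟨g.1, h⟩, congrArg _ (Units.ext rfl)⟩

/-- `diag(1, .., t, .., 1)` -/
def dg (i : Fin n) (t : kˣ) : GL (Fin n) k where
  val := diagonal (Pi.mulSingle i (t : k))
  inv := diagonal (Pi.mulSingle i ((t⁻¹ : kˣ) : k))
  val_inv := by
    rw [diagonal_mul_diagonal, ← diagonal_one]
    congr 1
    funext j
    by_cases h : j = i
    · subst h; simp
    · simp [Pi.mulSingle_eq_of_ne h]
  inv_val := by
    rw [diagonal_mul_diagonal, ← diagonal_one]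
    congr 1
    funext j
    by_cases h : j = i
    · subst h; simp
    · simp [Pi.mulSingle_eq_of_ne h]

theorem det_dg (i : Fin n) (t : kˣ) : (dg i t).1.det = t := by
  change (diagonal (Pi.mulSingle i (t : k))).det = t
  rw [det_diagonal, Finset.prod_eq_single i]
  · simp
  · intro j _ hj
    exact Pi.mulSingle_eq_of_ne hj _
  · intro h
    exact absurd (Finset.mem_univ i) h

theorem cont_dg (i : Fin n) : Continuous (dg i : kˣ → GL (Fin n) k) := by
  have h1 : ∀ f : kˣ → k, Continuous f →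
      Continuous fun t => (diagonal (Pi.mulSingle i (f t)) : Matrix (Fin n) (Fin n) k) := by
    intro f hf
    refine Continuous.matrix_diagonal ?_
    exact (continuous_mulSingle i).comp hf
  rw [Units.continuous_iff]
  exact ⟨h1 _ Units.continuous_val, h1 _ (Units.continuous_val.comp continuous_inv)⟩

theorem compact_units [ProperSpace k] (R : ℝ) :
    IsCompact {t : kˣ | 1 ≤ ‖(t : k)‖ ∧ ‖(t : k)‖ ≤ R} := by
  rw [Units.isEmbedding_val₀.isCompact_iff]
  have h1 : (Units.val '' {t : kˣ | 1 ≤ ‖(t : k)‖ ∧ ‖(t : k)‖ ≤ R}) =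
      Metric.closedBall (0 : k) R ∩ {x : k | 1 ≤ ‖x‖} := by
    ext x
    simp only [mem_image, mem_setOf_eq, mem_inter_iff, mem_closedBall_zero_iff]
    constructor
    · rintro ⟨t, ⟨h1, h2⟩, rfl⟩
      exact ⟨h2, h1⟩
    · rintro ⟨h2, h1⟩
      have hx : x ≠ 0 := by
        rintro rfl
        rw [norm_zero] at h1
        linarith
      exact ⟨Units.mk0 x hx, ⟨h1, h2⟩, rfl⟩
  rw [h1]
  exact (isCompact_closedBall _ _).inter_right (isClosed_le continuous_const continuous_norm)

theorem eq_dg_mul {R : ℝ} {c : k} (hc : 1 < ‖c‖) (hR : ‖c‖ ^ n ≤ R) (i : Fin n) (g : GL (Fin n) k) :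
    ∃ t : kˣ, (1 ≤ ‖(t : k)‖ ∧ ‖(t : k)‖ ≤ R) ∧ ∃ s : SpecialLinearGroup (Fin n) k,
      (QuotientGroup.mk g : PG k n) = QuotientGroup.mk (dg i t) * sl s := by
  have hn : n ≠ 0 := by
    rintro rfl
    exact i.elim0
  have hc0 : c ≠ 0 := by
    rintro rfl
    rw [norm_zero] at hc
    linarith
  have hg0 : g.1.det ≠ 0 := ((Matrix.isUnit_iff_isUnit_det g.1).1 g.isUnit).ne_zero
  obtain ⟨m, hm1, hm2⟩ := exists_mem_Ico_zpow (norm_pos_iff.2 hg0) (one_lt_pow₀ hc hn)
  -- the central element
  let cu : kˣ := Units.mk0 c hc0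
  let d : kˣ := cu ^ (-m)
  let z : GL (Fin n) k := ⟨scalar (Fin n) (d : k), scalar (Fin n) ((d⁻¹ : kˣ) : k), by
    rw [← map_mul, Units.mul_inv, map_one], by rw [← map_mul, Units.inv_mul, map_one]⟩
  have hz : z ∈ Subgroup.center (GL (Fin n) k) := by
    rw [GeneralLinearGroup.mem_center_iff_val_mem_range_scalar]
    exact ⟨_, rfl⟩
  have hzdet : (g * z).1.det = g.1.det * (d : k) ^ n := by
    rw [Units.val_mul, det_mul]
    congr 1
    change (scalar (Fin n) (d : k)).det = _
    rw [scalar_apply, det_diagonal, Finset.prod_const, Finset.card_univ, Fintype.card_fin]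
  have hd : ‖(d : k) ^ n‖ = ((‖c‖ ^ n) ^ m)⁻¹ := by
    change ‖(((cu ^ (-m) : kˣ) : k)) ^ n‖ = _
    rw [Units.val_zpow_eq_zpow_val]
    change ‖(c ^ (-m)) ^ n‖ = _
    rw [norm_pow, norm_zpow, _root_.zpow_neg, inv_pow, ← zpow_natCast, ← _root_.zpow_mul, mul_comm,
      _root_.zpow_mul,
      zpow_natCast]
  have hne : (g * z).1.det ≠ 0 := ((Matrix.isUnit_iff_isUnit_det _).1 (g * z).isUnit).ne_zero
  let t : kˣ := Units.mk0 (g * z).1.det hne
  have ht : ‖(t : k)‖ = ‖g.1.det‖ / (‖c‖ ^ n) ^ m := by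
    change ‖(g * z).1.det‖ = _
    rw [hzdet, norm_mul, hd, div_eq_mul_inv]
  have hpos : 0 < (‖c‖ ^ n) ^ m := zpow_pos (pow_pos (by linarith) _) _
  refine ⟨t, ⟨?_, ?_⟩, ?_⟩
  · rw [ht, le_div_iff₀ hpos, one_mul]
    exact hm1
  · rw [ht, div_le_iff₀ hpos]
    rw [zpow_add_one₀ (pow_pos (by linarith) _).ne', mul_comm] at hm2
    exact hm2.le.trans (mul_le_mul_of_nonneg_right hR hpos.le)
  · have hs : ((dg i t)⁻¹ * (g * z)).1.det = 1 := by
      have h1 : ((dg i t) * ((dg i t)⁻¹ * (g * z))).1.det = (g * z).1.det := by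
        rw [mul_inv_cancel_left]
      rw [Units.val_mul, det_mul, det_dg] at h1
      have h2 : (t : k) = (g * z).1.det := rfl
      rw [h2] at h1
      exact mul_left_cancel₀ hne (h1.trans (mul_one _).symm)
    obtain ⟨s, hs'⟩ := exists_sl _ hs
    refine ⟨s, ?_⟩
    rw [← hs', ← QuotientGroup.mk_mul, mul_inv_cancel_left]
    exact (QuotientGroup.mk_mul_of_mem g hz).symm

/-- `PSL_n(k)` is cocompact in `PGL_n(k)`. -/
theorem coc [ProperSpace k] (hn : n ≠ 0) : ∃ C : Set (PG k n), IsCompact C ∧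
    ∀ g : PG k n, ∃ c ∈ C, ∃ s : SpecialLinearGroup (Fin n) k, g = c * sl s := by
  obtain ⟨c, hc⟩ := NormedField.exists_one_lt_norm k
  let i : Fin n := ⟨0, Nat.pos_of_ne_zero hn⟩
  refine ⟨(fun t : kˣ => (QuotientGroup.mk (dg i t) : PG k n)) ''
    {t : kˣ | 1 ≤ ‖(t : k)‖ ∧ ‖(t : k)‖ ≤ ‖c‖ ^ n},
    (compact_units _).image (continuous_quotient_mk'.comp (cont_dg i)), fun g => ?_⟩
  obtain ⟨g, rfl⟩ := QuotientGroup.mk_surjective g
  obtain ⟨t, ht, s, hs⟩ := eq_dg_mul hc le_rfl i g
  exact ⟨_, ⟨t, ht, rfl⟩, s, hs⟩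

/-- commutators of `PGL_n(k)` come from `SL_n(k)` -/
theorem comm_sl (g h : PG k n) : ∃ s : SpecialLinearGroup (Fin n) k, g * h * g⁻¹ * h⁻¹ = sl s := by
  obtain ⟨g, rfl⟩ := QuotientGroup.mk_surjective g
  obtain ⟨h, rfl⟩ := QuotientGroup.mk_surjective h
  have hdet : (g * h * g⁻¹ * h⁻¹).1.det = 1 := by
    have h1 : GeneralLinearGroup.det (g * h * g⁻¹ * h⁻¹) = 1 := by
      simp only [map_mul, map_inv]
      rw [mul_comm (GeneralLinearGroup.det g) (GeneralLinearGroup.det h), mul_inv_cancel_right,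
        mul_inv_cancel]
    have h2 := congrArg Units.val h1
    exact h2
  exact exists_sl _ hdet

end coc

section disc

variable {E : Type} [Group E] [TopologicalSpace E] [IsTopologicalGroup E]

/-- A discrete subgroup of a topological group (not nec. Hausdorff) meets compact sets in finite
sets. -/
theorem fin_inter (Γ : Subgroup E) [hΓ : DiscreteTopology Γ] {C : Set E} (hC : IsCompact C) :
    ((Γ : Set E) ∩ C).Finite := by
  obtain ⟨U, hU, hU1⟩ : ∃ U : Set E, IsOpen U ∧ Subtype.val ⁻¹' U = ({1} : Set Γ) :=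
    isOpen_induced_iff.1 (isOpen_discrete _)
  have h1U : (1 : E) ∈ U := by
    have : (1 : Γ) ∈ (Subtype.val ⁻¹' U : Set Γ) := by rw [hU1]; rfl
    exact this
  have hΓU : ∀ x ∈ Γ, x ∈ U → x = 1 := by
    intro x hx hxU
    have : (⟨x, hx⟩ : Γ) ∈ (Subtype.val ⁻¹' U : Set Γ) := hxU
    rw [hU1] at this
    exact congrArg Subtype.val this
  have hcont : Continuous fun z : E × E => z.1⁻¹ * z.2 := continuous_fst.inv.mul continuous_snd
  have hnh : (fun z : E × E => z.1⁻¹ * z.2) ⁻¹' U ∈ 𝓝 ((1 : E), (1 : E)) :=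
    hcont.continuousAt.preimage_mem_nhds (by simpa using hU.mem_nhds h1U)
  rw [nhds_prod_eq, mem_prod_iff] at hnh
  obtain ⟨A, hA, B, hB, hAB⟩ := hnh
  set W := A ∩ B with hW
  have hWn : W ∈ 𝓝 (1 : E) := inter_mem hA hB
  have hWW : ∀ x ∈ W, ∀ y ∈ W, x⁻¹ * y ∈ U := fun x hx y hy =>
    hAB (⟨hx.1, hy.2⟩ : (x, y) ∈ A ×ˢ B)
  obtain ⟨t, htC, ht⟩ := hC.elim_nhds_subcover (fun c => (fun x => c * x) '' W) (fun c _ => by
    have : (fun x => c * x) '' W = (Homeomorph.mulLeft c) '' W := rfl
    have h2 := (Homeomorph.mulLeft c).isOpenMap.image_mem_nhds hWn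
    have h3 : (Homeomorph.mulLeft c) 1 = c := mul_one c
    rw [h3] at h2
    exact h2)
  have hsub : ((Γ : Set E) ∩ C) ⊆ ⋃ c ∈ t, ((Γ : Set E) ∩ ((fun x => c * x) '' W)) := by
    rintro x ⟨hx1, hx2⟩
    obtain ⟨c, hc, hxc⟩ := mem_iUnion₂.1 (ht hx2)
    exact mem_iUnion₂.2 ⟨c, hc, hx1, hxc⟩
  refine Set.Finite.subset (t.finite_toSet.biUnion fun c _ => ?_) hsub
  refine Set.Subsingleton.finite ?_
  rintro x ⟨hx, a, ha, rfl⟩ y ⟨hy, b, hb, rfl⟩
  have h3 : (c * a)⁻¹ * (c * b) ∈ U := by
    have : (c * a)⁻¹ * (c * b) = a⁻¹ * b := by group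
    rw [this]
    exact hWW a ha b hb
  have h4 := hΓU _ (Γ.mul_mem (Γ.inv_mem hx) hy) h3
  exact (inv_mul_eq_one.1 h4)

/-- the image of a discrete subgroup under a proper homomorphism -/
theorem disc_map {H : Type} [Group H] [TopologicalSpace H] [IsTopologicalGroup H] [T1Space H]
    [LocallyCompactSpace H] (π : E →* H) (hp : ∀ C : Set H, IsCompact C → IsCompact (π ⁻¹' C))
    (Γ : Subgroup E) [DiscreteTopology Γ] : DiscreteTopology (Γ.map π) := by
  obtain ⟨V, hV, hV1⟩ := exists_compact_mem_nhds (1 : H)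
  refine H793.discrete_of_finite _ hV1 ?_
  refine ((fin_inter Γ (hp V hV)).image π).subset ?_
  rintro x ⟨⟨g, hg, rfl⟩, hx⟩
  exact ⟨g, ⟨hg, hx⟩, rfl⟩

end disc

section main

variable {J : Type} [Fintype J] [DecidableEq J] {k : J → Type} [∀ j, NontriviallyNormedField (k j)]
  [∀ j, ProperSpace (k j)] {n : J → ℕ} {E : Type} [Group E] [TopologicalSpace E]
  [IsTopologicalGroup E]

/-- **Lattices under a proper homomorphism to a product of groups `PGL_n(k)` whose range contains
the images of the groups `SL_n(k)`** -/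
theorem lat_map (hn : ∀ j, n j ≠ 0) (p : E →* ∀ j, PG (k j) (n j)) (hp : IsProperMap p)
    (hS : ∀ j (s : SpecialLinearGroup (Fin (n j)) (k j)), Pi.mulSingle j (sl s) ∈ Set.range p)
    {Γ : Subgroup E} (hΓ : IsLattice Γ) : IsLattice (Γ.map p) := by
  haveI : ∀ j, T2Space (PG (k j) (n j)) := fun j => t2_pg _ _
  haveI : ∀ j, SecondCountableTopology (PG (k j) (n j)) := fun j => sc_pg _ _
  haveI : ∀ j, LocallyCompactSpace (PG (k j) (n j)) := fun j => lc_pg _ _
  haveI := hΓ.disc
  -- products of elements of the `SL_n(k)`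
  have hprod : ∀ s : ∀ j, SpecialLinearGroup (Fin (n j)) (k j), (fun j => sl (s j)) ∈ p.range := by
    intro s
    refine Subgroup.pi_mem_of_mulSingle_mem _ fun j => ?_
    exact hS j (s j)
  -- the range is normal
  have hnorm : p.range.Normal := by
    refine ⟨fun x hx g => ?_⟩
    choose s hs using fun j => comm_sl (g j) (x j)
    have h1 : g * x * g⁻¹ = (fun j => sl (s j)) * x := by
      funext j
      have := hs j
      change g j * x j * (g j)⁻¹ = sl (s j) * x j
      rw [← this, inv_mul_cancel_right]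
    rw [h1]
    exact p.range.mul_mem (hprod s) hx
  -- the range is cocompact
  choose C hC hCG using fun j => coc (k := k j) (hn j)
  have hCc : IsCompact (Set.pi univ C) := isCompact_univ_pi hC
  have hCC : ∀ g : ∀ j, PG (k j) (n j), ∃ c ∈ Set.pi univ C, ∃ e : p.range,
      g = c * p.range.subtype e := by
    intro g
    choose c hc s hs using fun j => hCG j (g j)
    exact ⟨c, fun j _ => hc j, ⟨_, hprod s⟩, funext fun j => hs j⟩
  -- the range is closed
  have hcl : IsClosed (p.range : Set (∀ j, PG (k j) (n j))) := by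
    have h2 := hp.isClosedMap _ isClosed_univ
    rw [image_univ] at h2
    exact h2
  have hce : IsClosedEmbedding (p.range.subtype : p.range → ∀ j, PG (k j) (n j)) :=
    hcl.isClosedEmbedding_subtypeVal
  haveI : LocallyCompactSpace p.range := hce.locallyCompactSpace
  -- the lattice of the range
  have hπc : Continuous p.rangeRestrict := hp.continuous.subtype_mk _
  have hπs : Function.Surjective p.rangeRestrict := p.rangeRestrict_surjective
  have hπp : ∀ C : Set p.range, IsCompact C → IsCompact (p.rangeRestrict ⁻¹' C) := by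
    intro C hC
    have h1 := hp.isCompact_preimage (hC.image hce.continuous)
    have h2 : p.rangeRestrict ⁻¹' C = p ⁻¹' (p.range.subtype '' C) := by
      ext x
      constructor
      · intro hx
        exact ⟨_, hx, rfl⟩
      · rintro ⟨y, hy, hyx⟩
        have : p.rangeRestrict x = y := Subtype.ext hyx.symm
        rw [mem_preimage, this]
        exact hy
    rw [h2]
    exact h1
  have h3 : IsLattice (Γ.map p.rangeRestrict) :=
    H793.lattice_map p.rangeRestrict hπc hπs hΓ (disc_map p.rangeRestrict hπp Γ)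
  have h4 := H719.Lt.lat_cocpt p.range.subtype hce.continuous
    (fun C hC => hce.isCompact_preimage hC) (by rwa [Subgroup.range_subtype]) hCc hCC h3
  rwa [Subgroup.map_map, MonoidHom.subtype_comp_rangeRestrict] at h4

/-- A proper homomorphism is injective on ICC discrete subgroups. -/
theorem inj_map {Γ : Type} [Group Γ] {H : Type} [Group H] [TopologicalSpace H]
    (hicc : ∀ g : Γ, g ≠ 1 → Set.Infinite {y : Γ | ∃ h, y = h * g * h⁻¹})
    (p : E →* H) (hp : IsProperMap p) (i : Γ →* E)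
    (hi : Function.Injective i) (hd : DiscreteTopology i.range) :
    Function.Injective (p.comp i) := by
  rw [injective_iff_map_eq_one]
  intro g hg
  by_contra hne
  refine hicc g hne ?_
  have h1 := fin_inter i.range (hp.isCompact_preimage (isCompact_singleton (x := (1 : H))))
  refine Set.Finite.of_finite_image (f := i) (h1.subset ?_) hi.injOn
  rintro _ ⟨_, ⟨h, rfl⟩, rfl⟩
  refine ⟨⟨_, rfl⟩, ?_⟩
  have hg' : p (i g) = 1 := hg
  rw [mem_preimage, mem_singleton_iff, map_mul, map_mul, map_mul, map_mul, hg', mul_one,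
    ← map_mul, ← map_mul, mul_inv_cancel, map_one, map_one]

/-- **the general step for [SX-LATP]** -/
theorem latP {Γ : Type} [Group Γ]
    (hicc : ∀ g : Γ, g ≠ 1 → Set.Infinite {y : Γ | ∃ h, y = h * g * h⁻¹}) (hn : ∀ j, n j ≠ 0)
    (p : E →* ∀ j, PG (k j) (n j)) (hp : IsProperMap p)
    (hS : ∀ j (s : SpecialLinearGroup (Fin (n j)) (k j)), Pi.mulSingle j (sl s) ∈ Set.range p)
    (i : Γ →* E) (hi : Function.Injective i) (hΓ : IsLattice i.range) :
    Function.Injective (p.comp i) ∧ IsLattice (p.comp i).range := by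
  refine ⟨inj_map hicc p hp i hi hΓ.disc, ?_⟩
  rw [MonoidHom.range_comp]
  exact lat_map hn p hp hS hΓ

end main

end Vale.Agent.P092.H188.LatP
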