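import Vale.Agent.P092.H714.Cl1
import Vale.Agent.P092.H835.PlF

/-!
P092 (helper188), [P3-COUNT] row (g2): anisotropy. `h = hf σ J` a nondegenerate `(σ, ε)`-hermitian form
of Witt index at most 2 over a locally compact field (every characteristic, every multiplicity), `σ`
isometric. For isotropic `x`, `ν` orthogonal to the isotropic `y`:
`‖x ∧ ν ∧ y‖² ≤ C ‖h(x, ν)‖ ‖x ∧ y‖ ‖ν ∧ y‖`.
-/

set_option linter.all false

open Matrix Module Set

namespace Vale.Agent.P092.H188.G2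

open Vale.Agent.P092.H714.Cl
open Vale.Agent.P092.H820 (wd)
open Vale.Agent.P092.H835.PlF (w3)

section wedge

variable {k : Type*} [NormedField k] {ι : Type*} [Fintype ι]

theorem w3_add (x x' : ι → k) (ω : ι × ι → k) : w3 (x + x') ω = w3 x ω + w3 x' ω := by
  funext p
  simp only [w3, Pi.add_apply]
  ring

theorem w3_smul (c : k) (x : ι → k) (ω : ι × ι → k) : w3 (c • x) ω = c • w3 x ω := by
  funext p
  simp only [w3, Pi.smul_apply, smul_eq_mul]
  ring

theorem w3_smul_right (c : k) (x : ι → k) (ω : ι × ι → k) : w3 x (c • ω) = c • w3 x ω := by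
  funext p
  simp only [w3, Pi.smul_apply, smul_eq_mul]
  ring

theorem w3_left (x y : ι → k) : w3 x (wd x y) = 0 := by
  funext p
  simp only [w3, wd, Pi.zero_apply]
  ring

theorem w3_right (x y : ι → k) : w3 y (wd x y) = 0 := by
  funext p
  simp only [w3, wd, Pi.zero_apply]
  ring

theorem w3_le (x : ι → k) (ω : ι × ι → k) : ‖w3 x ω‖ ≤ 3 * (‖x‖ * ‖ω‖) := by
  refine (pi_norm_le_iff_of_nonneg (by positivity)).2 fun p => ?_
  have h : ∀ i q, ‖x i * ω q‖ ≤ ‖x‖ * ‖ω‖ := fun i q => by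
    rw [norm_mul]
    exact mul_le_mul (norm_le_pi_norm x i) (norm_le_pi_norm ω q) (norm_nonneg _) (norm_nonneg _)
  simp only [w3]
  calc ‖x p.1 * ω (p.2.1, p.2.2) - x p.2.1 * ω (p.1, p.2.2) + x p.2.2 * ω (p.1, p.2.1)‖
      ≤ ‖x p.1 * ω (p.2.1, p.2.2)‖ + ‖x p.2.1 * ω (p.1, p.2.2)‖ + ‖x p.2.2 * ω (p.1, p.2.1)‖ :=
        (norm_add_le _ _).trans (add_le_add (norm_sub_le _ _) le_rfl)
    _ ≤ 3 * (‖x‖ * ‖ω‖) := by linarith [h p.1 (p.2.1, p.2.2), h p.2.1 (p.1, p.2.2), h p.2.2 (p.1, p.2.1)]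

theorem wd_le' (x y : ι → k) : ‖wd x y‖ ≤ 2 * (‖x‖ * ‖y‖) := by
  refine (pi_norm_le_iff_of_nonneg (by positivity)).2 fun p => ?_
  have h : ∀ i j, ‖x i * y j‖ ≤ ‖x‖ * ‖y‖ := fun i j => by
    rw [norm_mul]
    exact mul_le_mul (norm_le_pi_norm x i) (norm_le_pi_norm y j) (norm_nonneg _) (norm_nonneg _)
  simp only [wd]
  calc ‖x p.1 * y p.2 - x p.2 * y p.1‖ ≤ ‖x p.1 * y p.2‖ + ‖x p.2 * y p.1‖ := norm_sub_le _ _
    _ ≤ 2 * (‖x‖ * ‖y‖) := by linarith [h p.1 p.2, h p.2 p.1]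

theorem wd_smul_left' (c : k) (x y : ι → k) : wd (c • x) y = c • wd x y := by
  funext p
  simp only [wd, Pi.smul_apply, smul_eq_mul]
  ring

theorem wd_smul_right' (c : k) (x y : ι → k) : wd x (c • y) = c • wd x y := by
  funext p
  simp only [wd, Pi.smul_apply, smul_eq_mul]
  ring

theorem wd_add_smul (c : k) (x y : ι → k) : wd (x + c • y) y = wd x y := by
  funext p
  simp only [wd, Pi.add_apply, Pi.smul_apply, smul_eq_mul]
  ring

end wedge

section form

variable {n : Type} [Fintype n] [DecidableEq n] {k : Type} [NontriviallyNormedField k]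
  {σ : k →+* k} {ε : k} {J : Matrix n n k}

/-- the algebraic properties of the form which are used (symplectic, unitary and orthogonal forms) -/
structure Fh (σ : k →+* k) (ε : k) (J : Matrix n n k) : Prop where
  inv : ∀ x, σ (σ x) = x
  eps : ε * ε = 1
  seps : σ ε = ε
  herm : ∀ x y, hf σ J y x = ε * σ (hf σ J x y)
  nondeg : ∀ x, x ≠ 0 → ∃ y, hf σ J x y ≠ 0
  tv : ∀ y, ∃ β, hf σ J y y = β + ε * σ β

theorem Fh.of_frm (h : Frm σ ε J) : Fh σ ε J :=
  ⟨h.inv, h.eps, h.seps, h.herm, h.nondeg, h.tv⟩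

/-- the constant of the form -/
noncomputable def bJ (J : Matrix n n k) : ℝ := ∑ i, ∑ j, ‖J i j‖

theorem bJ_nonneg : 0 ≤ bJ J := Finset.sum_nonneg fun _ _ => Finset.sum_nonneg fun _ _ => norm_nonneg _

theorem hf_eq_sum (x y : n → k) : hf σ J x y = ∑ i, ∑ j, x i * (J i j * σ (y j)) := by
  unfold hf
  simp only [dotProduct, mulVec, Finset.mul_sum]

theorem hf_le (hσ : ∀ a, ‖σ a‖ = ‖a‖) (x y : n → k) : ‖hf σ J x y‖ ≤ bJ J * (‖x‖ * ‖y‖) := by
  rw [hf_eq_sum, bJ, Finset.sum_mul]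
  refine (norm_sum_le _ _).trans (Finset.sum_le_sum fun i _ => ?_)
  rw [Finset.sum_mul]
  refine (norm_sum_le _ _).trans (Finset.sum_le_sum fun j _ => ?_)
  rw [norm_mul, norm_mul, hσ]
  have h1 := norm_le_pi_norm x i
  have h2 := norm_le_pi_norm y j
  calc ‖x i‖ * (‖J i j‖ * ‖y j‖) = ‖J i j‖ * (‖x i‖ * ‖y j‖) := by ring
    _ ≤ ‖J i j‖ * (‖x‖ * ‖y‖) :=
      mul_le_mul_of_nonneg_left (mul_le_mul h1 h2 (norm_nonneg _) (norm_nonneg _)) (norm_nonneg _)

theorem continuous_sig (hσ : ∀ a, ‖σ a‖ = ‖a‖) : Continuous σ :=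
  (AddMonoidHomClass.isometry_of_norm σ hσ).continuous

theorem continuous_hf (hσ : ∀ a, ‖σ a‖ = ‖a‖) {X : Type*} [TopologicalSpace X] {f g : X → n → k}
    (hf' : Continuous f) (hg : Continuous g) : Continuous fun t => hf σ J (f t) (g t) := by
  simp only [hf_eq_sum]
  refine continuous_finset_sum _ fun i _ => continuous_finset_sum _ fun j _ => ?_
  exact ((continuous_apply i).comp hf').mul (continuous_const.mul
    ((continuous_sig hσ).comp ((continuous_apply j).comp hg)))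

/-- **bounded solutions of `a = β + ε σ β`** (every characteristic) -/
theorem tv_bdd (hF : Fh σ ε J) : ∃ C : ℝ, 0 ≤ C ∧ ∀ a : k, (∃ β, a = β + ε * σ β) →
    ∃ β, a = β + ε * σ β ∧ ‖β‖ ≤ C * ‖a‖ := by
  by_cases h : ∃ β₁ : k, β₁ + ε * σ β₁ ≠ 0
  · obtain ⟨β₁, h1⟩ := h
    set c := β₁ + ε * σ β₁ with hc
    have hfix : ∀ β : k, σ (β + ε * σ β) = ε * (β + ε * σ β) := by
      intro β
      have e1 : ε * (ε * σ β) = σ β := by rw [← mul_assoc, hF.eps, one_mul]
      rw [map_add, map_mul, hF.inv, hF.seps, mul_add, e1]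
      ring
    refine ⟨‖β₁‖ / ‖c‖, by positivity, ?_⟩
    rintro a ⟨β, hβ⟩
    have he : ε ≠ 0 := fun h => by
      have := hF.eps
      rw [h, zero_mul] at this
      exact zero_ne_one this
    have hs : σ (a / c) = a / c := by
      rw [map_div₀, hc, hfix, hβ, hfix, mul_div_mul_left _ _ he]
    refine ⟨a / c * β₁, ?_, ?_⟩
    · rw [map_mul, hs]
      have : a / c * β₁ + ε * (a / c * σ β₁) = a / c * c := by rw [hc]; ring
      rw [this, div_mul_cancel₀ _ h1]
    · rw [norm_mul, norm_div]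
      apply le_of_eq
      ring
  · simp only [ne_eq, not_exists, not_not] at h
    refine ⟨0, le_rfl, ?_⟩
    rintro a ⟨β, hβ⟩
    refine ⟨0, ?_, ?_⟩
    · rw [hβ, h β, h 0]
    · simp

end form

section main

variable {n : Type} [Fintype n] [DecidableEq n] {k : Type} [NontriviallyNormedField k]
  {σ : k →+* k} {ε : k} {J : Matrix n n k}

/-- the Witt index is at most two -/
def WI2 (σ : k →+* k) (J : Matrix n n k) : Prop :=
  ∀ X : Submodule k (n → k), (∀ x ∈ X, ∀ y ∈ X, hf σ J x y = 0) → finrank k X ≤ 2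

theorem symm0 (hF : Fh σ ε J) {x y : n → k} (h : hf σ J x y = 0) : hf σ J y x = 0 := by
  rw [hF.herm, h, map_zero, mul_zero]

theorem norm_eps (hF : Fh σ ε J) : ‖ε‖ = 1 := by
  have h : ‖ε‖ * ‖ε‖ = 1 := by rw [← norm_mul, hF.eps, norm_one]
  nlinarith [norm_nonneg ε]

theorem norm_symm (hF : Fh σ ε J) (hσ : ∀ a, ‖σ a‖ = ‖a‖) (x y : n → k) :
    ‖hf σ J x y‖ = ‖hf σ J y x‖ := by
  rw [hF.herm y x, norm_mul, norm_eps hF, one_mul, hσ]

theorem hf_sub_left (x x' y : n → k) : hf σ J (x - x') y = hf σ J x y - hf σ J x' y := by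
  have h := hf_add_left σ J (x - x') x' y
  rw [sub_add_cancel] at h
  rw [h, add_sub_cancel_right]

theorem hf_sub_right (x y y' : n → k) : hf σ J x (y - y') = hf σ J x y - hf σ J x y' := by
  have h := hf_add_right σ J x (y - y') y'
  rw [sub_add_cancel] at h
  rw [h, add_sub_cancel_right]

theorem no_three (hF : Fh σ ε J) (hW : WI2 σ J) {y v u : n → k} (hyy : hf σ J y y = 0)
    (hvv : hf σ J v v = 0) (huu : hf σ J u u = 0) (hvy : hf σ J v y = 0) (huy : hf σ J u y = 0)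
    (huv : hf σ J u v = 0) : ¬ LinearIndependent k ![y, v, u] := by
  intro hli
  have h1 : ∀ i j, hf σ J ((![y, v, u] : Fin 3 → n → k) i) ((![y, v, u] : Fin 3 → n → k) j) = 0 := by
    intro i j
    fin_cases i <;> fin_cases j
    · exact hyy
    · exact symm0 hF hvy
    · exact symm0 hF huy
    · exact hvy
    · exact hvv
    · exact symm0 hF huv
    · exact huy
    · exact huv
    · exact huu
  set X := Submodule.span k (Set.range ![y, v, u]) with hX
  have h2 : ∀ j, ∀ x ∈ X, hf σ J x ((![y, v, u] : Fin 3 → n → k) j) = 0 := by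
    intro j x hx
    induction hx using Submodule.span_induction with
    | mem x hx => obtain ⟨i, rfl⟩ := hx; exact h1 i j
    | zero => exact hf_zero_left σ J _
    | add x y _ _ h h' => rw [hf_add_left, h, h', add_zero]
    | smul a x _ h => rw [hf_smul_left, h, mul_zero]
  have h3 : ∀ x ∈ X, ∀ z ∈ X, hf σ J x z = 0 := by
    intro x hx z hz
    induction hz using Submodule.span_induction with
    | mem z hz => obtain ⟨i, rfl⟩ := hz; exact h2 i x hx
    | zero => exact hf_zero_right σ J _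
    | add y z _ _ h h' => rw [hf_add_right, h, h', add_zero]
    | smul a z _ h => rw [hf_smul_right, h, mul_zero]
  have h4 := hW X h3
  rw [hX, finrank_span_eq_card hli, Fintype.card_fin] at h4
  omega

variable [ProperSpace k]

/-- **uniform anisotropy** -/
theorem aniso3 (hF : Fh σ ε J) (hσ : ∀ a, ‖σ a‖ = ‖a‖) (hW : WI2 σ J) (C c : ℝ) (hc : 0 < c)
    (i : n) : ∃ a : ℝ, 0 < a ∧ ∀ y v z u : n → k, ‖y‖ ≤ 1 → ‖y i‖ = 1 → ‖v‖ ≤ C → ‖z‖ ≤ C →
      c ≤ ‖hf σ J v z‖ → hf σ J y y = 0 → hf σ J v v = 0 → hf σ J v y = 0 → hf σ J z y = 0 →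
      hf σ J u y = 0 → hf σ J u v = 0 → hf σ J u z = 0 → u i = 0 →
      a * ‖u‖ ^ 2 ≤ ‖hf σ J u u‖ := by
  let T := (n → k) × (n → k) × (n → k) × (n → k)
  have c1 : Continuous fun p : T => p.1 := continuous_fst
  have c2 : Continuous fun p : T => p.2.1 := continuous_fst.comp continuous_snd
  have c3 : Continuous fun p : T => p.2.2.1 :=
    continuous_fst.comp (continuous_snd.comp continuous_snd)
  have c4 : Continuous fun p : T => p.2.2.2 :=
    continuous_snd.comp (continuous_snd.comp continuous_snd)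
  let K : Set T := {p | ‖p.1‖ ≤ 1 ∧ ‖p.1 i‖ = 1 ∧ ‖p.2.1‖ ≤ C ∧ ‖p.2.2.1‖ ≤ C ∧
    c ≤ ‖hf σ J p.2.1 p.2.2.1‖ ∧ hf σ J p.1 p.1 = 0 ∧ hf σ J p.2.1 p.2.1 = 0 ∧
    hf σ J p.2.1 p.1 = 0 ∧ hf σ J p.2.2.1 p.1 = 0 ∧ hf σ J p.2.2.2 p.1 = 0 ∧
    hf σ J p.2.2.2 p.2.1 = 0 ∧ hf σ J p.2.2.2 p.2.2.1 = 0 ∧ p.2.2.2 i = 0 ∧ ‖p.2.2.2‖ = 1}
  have hcl : IsClosed K := by
    refine (isClosed_le c1.norm continuous_const).inter ?_
    refine (isClosed_eq ((continuous_apply i).comp c1).norm continuous_const).inter ?_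
    refine (isClosed_le c2.norm continuous_const).inter ?_
    refine (isClosed_le c3.norm continuous_const).inter ?_
    refine (isClosed_le continuous_const (continuous_hf hσ c2 c3).norm).inter ?_
    refine (isClosed_eq (continuous_hf hσ c1 c1) continuous_const).inter ?_
    refine (isClosed_eq (continuous_hf hσ c2 c2) continuous_const).inter ?_
    refine (isClosed_eq (continuous_hf hσ c2 c1) continuous_const).inter ?_
    refine (isClosed_eq (continuous_hf hσ c3 c1) continuous_const).inter ?_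
    refine (isClosed_eq (continuous_hf hσ c4 c1) continuous_const).inter ?_
    refine (isClosed_eq (continuous_hf hσ c4 c2) continuous_const).inter ?_
    refine (isClosed_eq (continuous_hf hσ c4 c3) continuous_const).inter ?_
    exact (isClosed_eq ((continuous_apply i).comp c4) continuous_const).inter
      (isClosed_eq c4.norm continuous_const)
  have hbd : Bornology.IsBounded K := by
    refine (Metric.isBounded_closedBall (x := (0 : T)) (r := max 1 C)).subset ?_
    rintro p ⟨h1, -, h3, h4, -, -, -, -, -, -, -, -, -, h5⟩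
    rw [mem_closedBall_zero_iff, Prod.norm_def, Prod.norm_def, Prod.norm_def]
    exact max_le (h1.trans (le_max_left _ _)) (max_le (h3.trans (le_max_right _ _))
      (max_le (h4.trans (le_max_right _ _)) (h5.le.trans (le_max_left _ _))))
  have hK : IsCompact K := Metric.isCompact_of_isClosed_isBounded hcl hbd
  have hpos : ∀ p ∈ K, 0 < ‖hf σ J p.2.2.2 p.2.2.2‖ := by
    rintro ⟨y, v, z, u⟩ ⟨h1, h2, h3, h4, h5, hyy, hvv, hvy, hzy, huy, huv, huz, hui, hu⟩
    simp only at h1 h2 h3 h4 h5 hyy hvv hvy hzy huy huv huz hui hu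
    refine norm_pos_iff.2 fun huu => no_three hF hW hyy hvv huu hvy huy huv ?_
    rw [Fintype.linearIndependent_iff]
    intro g hg
    rw [Fin.sum_univ_three] at hg
    change g 0 • y + g 1 • v + g 2 • u = 0 at hg
    have e1 : hf σ J (g 0 • y + g 1 • v + g 2 • u) z = 0 := by rw [hg, hf_zero_left]
    rw [hf_add_left, hf_add_left, hf_smul_left, hf_smul_left, hf_smul_left, symm0 hF hzy, huz,
      mul_zero, mul_zero, zero_add, add_zero] at e1
    have hvz : hf σ J v z ≠ 0 := norm_pos_iff.1 (lt_of_lt_of_le hc h5)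
    have g1 : g 1 = 0 := (mul_eq_zero.1 e1).resolve_right hvz
    rw [g1, zero_smul, add_zero] at hg
    have e2 := congrFun hg i
    change g 0 * y i + g 2 * u i = 0 at e2
    rw [hui, mul_zero, add_zero] at e2
    have hyi : y i ≠ 0 := norm_pos_iff.1 (by rw [h2]; exact one_pos)
    have g0 : g 0 = 0 := (mul_eq_zero.1 e2).resolve_right hyi
    rw [g0, zero_smul, zero_add] at hg
    have hu0 : u ≠ 0 := norm_pos_iff.1 (by rw [hu]; exact one_pos)
    have g2 : g 2 = 0 := (smul_eq_zero.1 hg).resolve_right hu0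
    intro l
    fin_cases l
    · exact g0
    · exact g1
    · exact g2
  obtain ⟨a, ha, ha'⟩ := hK.exists_forall_le' (continuous_hf hσ c4 c4).norm.continuousOn hpos
  refine ⟨a, ha, fun y v z u h1 h2 h3 h4 h5 hyy hvv hvy hzy huy huv huz hui => ?_⟩
  by_cases hu : u = 0
  · rw [hu, norm_zero, hf_zero_left, norm_zero]
    simp
  haveI : Nonempty n := ⟨i⟩
  obtain ⟨l, hl⟩ := Finite.exists_max fun j => ‖u j‖
  have hl' : ‖u l‖ = ‖u‖ :=
    le_antisymm (norm_le_pi_norm u l) ((pi_norm_le_iff_of_nonneg (norm_nonneg _)).2 hl)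
  have hul : u l ≠ 0 := norm_pos_iff.1 (by rw [hl']; exact norm_pos_iff.2 hu)
  have hmem : (y, v, z, (u l)⁻¹ • u) ∈ K := by
    refine ⟨h1, h2, h3, h4, h5, hyy, hvv, hvy, hzy, ?_, ?_, ?_, ?_, ?_⟩
    · change hf σ J ((u l)⁻¹ • u) y = 0
      rw [hf_smul_left, huy, mul_zero]
    · change hf σ J ((u l)⁻¹ • u) v = 0
      rw [hf_smul_left, huv, mul_zero]
    · change hf σ J ((u l)⁻¹ • u) z = 0
      rw [hf_smul_left, huz, mul_zero]
    · change (u l)⁻¹ * u i = 0
      rw [hui, mul_zero]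
    · change ‖(u l)⁻¹ • u‖ = 1
      rw [norm_smul, norm_inv, hl', inv_mul_cancel₀ (norm_ne_zero_iff.2 hu)]
  have h6 := ha' _ hmem
  change a ≤ ‖hf σ J ((u l)⁻¹ • u) ((u l)⁻¹ • u)‖ at h6
  rw [hf_smul_left, hf_smul_right, norm_mul, norm_mul, hσ, norm_inv, hl'] at h6
  have hupos : 0 < ‖u‖ := norm_pos_iff.2 hu
  have h7 := mul_le_mul_of_nonneg_right h6 (sq_nonneg ‖u‖)
  refine h7.trans (le_of_eq ?_)
  field_simp

end main

end Vale.Agent.P092.H188.G2
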