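import Vale.Agent.P092.H188.G2

/-!
P092 (helper188), [P3-COUNT] row (g2), second part: the inequality
`‖x ∧ ν ∧ y‖² ≤ C ‖h(x, ν)‖ ‖x ∧ y‖ ‖ν ∧ y‖` for isotropic `x`, `ν` orthogonal to the isotropic `y`.
-/

set_option linter.all false

open Matrix Module Set

namespace Vale.Agent.P092.H188.G2

open Vale.Agent.P092.H714.Cl
open Vale.Agent.P092.H820 (wd)
open Vale.Agent.P092.H835.PlF (w3)

variable {n : Type} [Fintype n] [DecidableEq n] {k : Type} [NontriviallyNormedField k]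
  {σ : k →+* k} {ε : k} {J : Matrix n n k}

theorem exists_coord {k : Type*} [NormedField k] {α : Type*} [Fintype α] [Nonempty α] (x : α → k) :
    ∃ i, ‖x i‖ = ‖x‖ := by
  obtain ⟨l, hl⟩ := Finite.exists_max fun j => ‖x j‖
  exact ⟨l, le_antisymm (norm_le_pi_norm x l) ((pi_norm_le_iff_of_nonneg (norm_nonneg _)).2 hl)⟩

/-- the functional `h(·, y)` in coordinates -/
def cf (σ : k →+* k) (J : Matrix n n k) (y : n → k) : n → k := fun a => hf σ J (Pi.single a 1) y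

theorem hf_cf (x y : n → k) : hf σ J x y = ∑ a, x a * cf σ J y a := by
  unfold cf hf
  simp only [single_one_dotProduct]
  rfl

theorem cf_le (hσ : ∀ a, ‖σ a‖ = ‖a‖) (y : n → k) : ‖cf σ J y‖ ≤ bJ J * ‖y‖ := by
  refine (pi_norm_le_iff_of_nonneg (mul_nonneg bJ_nonneg (norm_nonneg _))).2 fun a => ?_
  refine (hf_le hσ _ _).trans (mul_le_mul_of_nonneg_left ?_ bJ_nonneg)
  have h1 : ‖(Pi.single a 1 : n → k)‖ ≤ 1 := by
    refine (pi_norm_le_iff_of_nonneg zero_le_one).2 fun b => ?_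
    by_cases h : b = a
    · subst h; simp
    · simp [Pi.single_eq_of_ne h]
  calc ‖(Pi.single a 1 : n → k)‖ * ‖y‖ ≤ 1 * ‖y‖ := mul_le_mul_of_nonneg_right h1 (norm_nonneg _)
    _ = ‖y‖ := one_mul _

theorem continuous_cf (hσ : ∀ a, ‖σ a‖ = ‖a‖) {X : Type*} [TopologicalSpace X] {f : X → n → k}
    (hf' : Continuous f) : Continuous fun t => cf σ J (f t) :=
  continuous_pi fun a => continuous_hf hσ continuous_const hf'

variable [ProperSpace k]

/-- **two functionals are independent at unit scale** -/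
theorem wd_cf (hF : Fh σ ε J) (hσ : ∀ a, ‖σ a‖ = ‖a‖) (i : n) : ∃ c : ℝ, 0 < c ∧
    ∀ y v : n → k, ‖y‖ ≤ 1 → ‖y i‖ = 1 → ‖v‖ = 1 → v i = 0 →
      c ≤ ‖wd (cf σ J v) (cf σ J y)‖ := by
  let T := (n → k) × (n → k)
  have c1 : Continuous fun p : T => p.1 := continuous_fst
  have c2 : Continuous fun p : T => p.2 := continuous_snd
  let K : Set T := {p | ‖p.1‖ ≤ 1 ∧ ‖p.1 i‖ = 1 ∧ ‖p.2‖ = 1 ∧ p.2 i = 0}
  have hcl : IsClosed K := by
    refine (isClosed_le c1.norm continuous_const).inter ?_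
    refine (isClosed_eq ((continuous_apply i).comp c1).norm continuous_const).inter ?_
    exact (isClosed_eq c2.norm continuous_const).inter
      (isClosed_eq ((continuous_apply i).comp c2) continuous_const)
  have hbd : Bornology.IsBounded K := by
    refine (Metric.isBounded_closedBall (x := (0 : T)) (r := 1)).subset ?_
    rintro p ⟨h1, -, h3, -⟩
    rw [mem_closedBall_zero_iff, Prod.norm_def]
    exact max_le h1 h3.le
  have hK : IsCompact K := Metric.isCompact_of_isClosed_isBounded hcl hbd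
  have hwd : Continuous fun p : T => wd (cf σ J p.2) (cf σ J p.1) := by
    have h1 := continuous_cf (σ := σ) (J := J) hσ c1
    have h2 := continuous_cf (σ := σ) (J := J) hσ c2
    refine continuous_pi fun q => ?_
    exact (((continuous_apply q.1).comp h2).mul ((continuous_apply q.2).comp h1)).sub
      (((continuous_apply q.2).comp h2).mul ((continuous_apply q.1).comp h1))
  have hpos : ∀ p ∈ K, 0 < ‖wd (cf σ J p.2) (cf σ J p.1)‖ := by
    rintro ⟨y, v⟩ ⟨h1, h2, h3, h4⟩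
    simp only at h1 h2 h3 h4
    refine norm_pos_iff.2 fun h0 => ?_
    have hyi : y i ≠ 0 := norm_pos_iff.1 (by rw [h2]; exact one_pos)
    have hy0 : y ≠ 0 := fun h => hyi (by rw [h]; rfl)
    obtain ⟨w, hw⟩ := hF.nondeg y hy0
    have hw' : hf σ J w y ≠ 0 := fun h => hw (symm0 hF h)
    obtain ⟨a, ha⟩ : ∃ a, cf σ J y a ≠ 0 := by
      by_contra hcon
      simp only [ne_eq, not_exists, not_not] at hcon
      apply hw'
      rw [hf_cf]
      exact Finset.sum_eq_zero fun a _ => by rw [hcon, mul_zero]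
    set t := cf σ J v a / cf σ J y a with ht
    have h5 : ∀ b, cf σ J v b = t * cf σ J y b := by
      intro b
      have h6 := congrFun h0 (a, b)
      change cf σ J v a * cf σ J y b - cf σ J v b * cf σ J y a = 0 at h6
      rw [ht, div_mul_eq_mul_div, eq_div_iff ha]
      exact (sub_eq_zero.1 h6).symm
    have h6 : ∀ x, hf σ J x (v - σ t • y) = 0 := by
      intro x
      rw [hf_sub_right, hf_smul_right, hF.inv, hf_cf, hf_cf, Finset.mul_sum, ← Finset.sum_sub_distrib]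
      exact Finset.sum_eq_zero fun b _ => by rw [h5 b]; ring
    have h7 : v - σ t • y = 0 := by
      by_contra hne
      obtain ⟨x, hx⟩ := hF.nondeg _ hne
      exact hx (symm0 hF (h6 x))
    have h8 : v i = σ t * y i := by
      have := congrFun h7 i
      exact sub_eq_zero.1 this
    rw [h4] at h8
    have h9 : σ t = 0 := (mul_eq_zero.1 h8.symm).resolve_right hyi
    rw [h9, zero_smul, sub_zero] at h7
    rw [h7, norm_zero] at h3
    exact zero_ne_one h3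
  obtain ⟨a, ha, ha'⟩ := hK.exists_forall_le' hwd.norm.continuousOn hpos
  exact ⟨a, ha, fun y v h1 h2 h3 h4 => ha' (y, v) ⟨h1, h2, h3, h4⟩⟩

/-- **a partner at unit scale, isotropic and orthogonal to `y`** -/
theorem exists_z (hF : Fh σ ε J) (hσ : ∀ a, ‖σ a‖ = ‖a‖) (i : n) : ∃ C c : ℝ, 0 ≤ C ∧ 0 < c ∧
    ∀ y v : n → k, ‖y‖ ≤ 1 → ‖y i‖ = 1 → ‖v‖ = 1 → v i = 0 → hf σ J v v = 0 → hf σ J v y = 0 →
      ∃ z, ‖z‖ ≤ C ∧ hf σ J z z = 0 ∧ hf σ J z y = 0 ∧ c ≤ ‖hf σ J v z‖ := by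
  obtain ⟨c, hc, hc'⟩ := wd_cf hF hσ i
  obtain ⟨C₀, hC₀, hC₀'⟩ := tv_bdd hF
  set B := bJ J with hB
  have hB0 : 0 ≤ B := bJ_nonneg
  refine ⟨2 * B + C₀ * (B * (2 * B) ^ 2) / c, c, by positivity, hc, ?_⟩
  intro y v h1 h2 h3 h4 hvv hvy
  haveI : Nonempty n := ⟨i⟩
  obtain ⟨⟨a, b⟩, hab⟩ := exists_coord (wd (cf σ J v) (cf σ J y))
  set P := cf σ J v with hP
  set Q := cf σ J y with hQ
  obtain ⟨w, hw⟩ : ∃ w : n → k, w = Q b • Pi.single a 1 - Q a • Pi.single b 1 := ⟨_, rfl⟩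
  have hQn : ∀ l, ‖Q l‖ ≤ B := fun l => by
    refine (norm_le_pi_norm Q l).trans ((cf_le hσ y).trans ?_)
    calc B * ‖y‖ ≤ B * 1 := mul_le_mul_of_nonneg_left h1 hB0
      _ = B := mul_one _
  have hs : ∀ l, ‖(Pi.single l 1 : n → k)‖ ≤ 1 := fun l => by
    refine (pi_norm_le_iff_of_nonneg zero_le_one).2 fun b => ?_
    by_cases h : b = l
    · subst h; simp
    · simp [Pi.single_eq_of_ne h]
  have hwn : ‖w‖ ≤ 2 * B := by
    have e1 : ∀ l l', ‖Q l • (Pi.single l' 1 : n → k)‖ ≤ B := fun l l' => by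
      rw [norm_smul]
      calc ‖Q l‖ * ‖(Pi.single l' 1 : n → k)‖ ≤ B * 1 :=
            mul_le_mul (hQn l) (hs l') (norm_nonneg _) hB0
        _ = B := mul_one _
    rw [hw]
    refine (norm_sub_le _ _).trans ?_
    linarith [e1 b a, e1 a b]
  have hwx : ∀ x : n → k, hf σ J w x = Q b * cf σ J x a - Q a * cf σ J x b := by
    intro x
    rw [hw, hf_sub_left, hf_smul_left, hf_smul_left]
    rfl
  have hwy : hf σ J w y = 0 := by
    rw [hwx]
    change Q b * Q a - Q a * Q b = 0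
    ring
  have hwv : ‖hf σ J w v‖ = ‖wd P Q‖ := by
    rw [hwx, ← hab]
    change ‖Q b * P a - Q a * P b‖ = ‖P a * Q b - P b * Q a‖
    congr 1
    ring
  have hcw : c ≤ ‖hf σ J v w‖ := by
    rw [norm_symm hF hσ, hwv]
    exact hc' y v h1 h2 h3 h4
  have hvw0 : hf σ J v w ≠ 0 := norm_pos_iff.1 (lt_of_lt_of_le hc hcw)
  obtain ⟨β, hβ, hβn⟩ := hC₀' _ (hF.tv w)
  have hβn' : ‖β‖ ≤ C₀ * (B * (2 * B) ^ 2) := by
    refine hβn.trans (mul_le_mul_of_nonneg_left ?_ hC₀)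
    refine (hf_le hσ w w).trans (mul_le_mul_of_nonneg_left ?_ hB0)
    nlinarith [norm_nonneg w]
  set t := β / hf σ J v w with ht
  have htn : ‖t‖ ≤ C₀ * (B * (2 * B) ^ 2) / c := by
    rw [ht, norm_div]
    exact div_le_div₀ (by positivity) hβn' hc hcw
  refine ⟨w - t • v, ?_, ?_, ?_, ?_⟩
  · refine (norm_sub_le _ _).trans ?_
    rw [norm_smul, h3, mul_one]
    exact add_le_add hwn htn
  · have e1 : hf σ J w v = ε * σ (hf σ J v w) := hF.herm v w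
    have e2 : t * hf σ J v w = β := div_mul_cancel₀ _ hvw0
    rw [hf_sub_left, hf_sub_right, hf_sub_right, hf_smul_left, hf_smul_left, hf_smul_right,
      hf_smul_right, hvv, e1, hβ, e2]
    have e3 : σ t * (ε * σ (hf σ J v w)) = ε * σ β := by
      rw [← e2, map_mul]
      ring
    rw [e3]
    ring
  · rw [hf_sub_left, hf_smul_left, hvy, hwy]
    ring
  · rw [hf_sub_right, hf_smul_right, hvv, mul_zero, sub_zero]
    exact hcw

/-- the inequality for normalised vectors -/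
theorem g2_unit (hF : Fh σ ε J) (hσ : ∀ a, ‖σ a‖ = ‖a‖) (hW : WI2 σ J) (i : n) :
    ∃ C : ℝ, 0 ≤ C ∧ ∀ y v x : n → k, ‖y‖ ≤ 1 → ‖y i‖ = 1 → ‖v‖ = 1 → v i = 0 → ‖x‖ ≤ 1 →
      hf σ J y y = 0 → hf σ J v v = 0 → hf σ J x x = 0 → hf σ J v y = 0 → hf σ J x y = 0 →
      ‖w3 x (wd v y)‖ ^ 2 ≤ C * ‖hf σ J x v‖ := by
  obtain ⟨Cz, c, hCz, hc, hz⟩ := exists_z hF hσ i
  obtain ⟨a₀, ha₀, han⟩ := aniso3 hF hσ hW (max 1 Cz) c hc i
  set B := bJ J with hB
  have hB0 : 0 ≤ B := bJ_nonneg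
  refine ⟨72 * (B * Cz ^ 2 / c ^ 2 + 2 * (B * Cz) / (c * a₀)), by positivity, ?_⟩
  intro y v x h1 h2 h3 h4 h5 hyy hvv hxx hvy hxy
  obtain ⟨z, hzn, hzz, hzy, hcz⟩ := hz y v h1 h2 h3 h4 hvv hvy
  set δ := ‖hf σ J x v‖ with hδ
  have hδ0 : 0 ≤ δ := norm_nonneg _
  have hδB : δ ≤ B := by
    refine (hf_le hσ x v).trans ?_
    rw [h3, mul_one]
    calc B * ‖x‖ ≤ B * 1 := mul_le_mul_of_nonneg_left h5 hB0
      _ = B := mul_one _
  have hvz0 : hf σ J v z ≠ 0 := norm_pos_iff.1 (lt_of_lt_of_le hc hcz)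
  have hczv : c ≤ ‖hf σ J z v‖ := by rwa [norm_symm hF hσ]
  have hzv0 : hf σ J z v ≠ 0 := norm_pos_iff.1 (lt_of_lt_of_le hc hczv)
  have hyi : y i ≠ 0 := norm_pos_iff.1 (by rw [h2]; exact one_pos)
  set b := hf σ J x v / hf σ J z v with hb
  set a := hf σ J x z / hf σ J v z with ha
  have hbn : ‖b‖ ≤ δ / c := by
    rw [hb, norm_div]
    exact div_le_div₀ hδ0 le_rfl hc hczv
  have hxz : ‖hf σ J x z‖ ≤ B * Cz := by
    refine (hf_le hσ x z).trans (mul_le_mul_of_nonneg_left ?_ hB0)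
    calc ‖x‖ * ‖z‖ ≤ 1 * Cz := mul_le_mul h5 hzn (norm_nonneg _) zero_le_one
      _ = Cz := one_mul _
  have han' : ‖a‖ ≤ B * Cz / c := by
    rw [ha, norm_div]
    exact div_le_div₀ (by positivity) hxz hc hcz
  set u := x - a • v - b • z with hu
  set s := u i / y i with hs
  set u' := u - s • y with hu'
  -- orthogonality
  have huv : hf σ J u v = 0 := by
    rw [hu, hf_sub_left, hf_sub_left, hf_smul_left, hf_smul_left, hvv, hb, div_mul_cancel₀ _ hzv0]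
    ring
  have huz : hf σ J u z = 0 := by
    rw [hu, hf_sub_left, hf_sub_left, hf_smul_left, hf_smul_left, hzz, ha, div_mul_cancel₀ _ hvz0]
    ring
  have huy : hf σ J u y = 0 := by
    rw [hu, hf_sub_left, hf_sub_left, hf_smul_left, hf_smul_left, hxy, hvy, hzy]
    ring
  have hu'v : hf σ J u' v = 0 := by
    rw [hu', hf_sub_left, hf_smul_left, huv, symm0 hF hvy, mul_zero, sub_zero]
  have hu'z : hf σ J u' z = 0 := by
    rw [hu', hf_sub_left, hf_smul_left, huz, symm0 hF hzy, mul_zero, sub_zero]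
  have hu'y : hf σ J u' y = 0 := by
    rw [hu', hf_sub_left, hf_smul_left, huy, hyy, mul_zero, sub_zero]
  have hu'i : u' i = 0 := by
    change u i - s * y i = 0
    rw [hs, div_mul_cancel₀ _ hyi, sub_self]
  have hu'u' : hf σ J u' u' = hf σ J u u := by
    rw [hu', hf_sub_right, hf_smul_right, ← hu', hu'y, mul_zero, sub_zero, hu', hf_sub_left,
      hf_smul_left, symm0 hF huy, mul_zero, sub_zero]
  have huu : ‖hf σ J u u‖ ≤ 2 * (B * Cz) / c * δ := by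
    have e1 : hf σ J u u = - (σ a * hf σ J x v + σ b * hf σ J x z) := by
      have e2 : hf σ J u u = hf σ J x u := by
        conv_lhs => rw [hu]
        rw [← hu, hf_sub_left, hf_sub_left, hf_smul_left, hf_smul_left, symm0 hF huv,
          symm0 hF huz]
        ring
      rw [e2, hu, hf_sub_right, hf_sub_right, hf_smul_right, hf_smul_right, hxx]
      ring
    rw [e1, norm_neg]
    refine (norm_add_le _ _).trans ?_
    rw [norm_mul, norm_mul, hσ, hσ, ← hδ]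
    have e3 : ‖a‖ * δ ≤ B * Cz / c * δ := mul_le_mul_of_nonneg_right han' hδ0
    have e4 : ‖b‖ * ‖hf σ J x z‖ ≤ δ / c * (B * Cz) :=
      mul_le_mul hbn hxz (norm_nonneg _) (by positivity)
    have e5 : B * Cz / c * δ + δ / c * (B * Cz) = 2 * (B * Cz) / c * δ := by ring
    linarith
  have hmax : ‖v‖ ≤ max 1 Cz := h3.le.trans (le_max_left _ _)
  have hmax' : ‖z‖ ≤ max 1 Cz := hzn.trans (le_max_right _ _)
  have hsq : a₀ * ‖u'‖ ^ 2 ≤ 2 * (B * Cz) / c * δ :=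
    (han y v z u' h1 h2 hmax hmax' hcz hyy hvv hvy hzy hu'y hu'v hu'z hu'i).trans
      (by rw [hu'u']; exact huu)
  have hsq' : ‖u'‖ ^ 2 ≤ 2 * (B * Cz) / (c * a₀) * δ := by
    have : ‖u'‖ ^ 2 ≤ (2 * (B * Cz) / c * δ) / a₀ := by
      rw [le_div_iff₀ ha₀, mul_comm]
      exact hsq
    refine this.trans (le_of_eq ?_)
    field_simp
  -- the wedge
  have hx : x = a • v + b • z + (u' + s • y) := by
    rw [hu', hu]
    abel
  have hw : w3 x (wd v y) = b • w3 z (wd v y) + w3 u' (wd v y) := by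
    conv_lhs => rw [hx]
    rw [w3_add, w3_add, w3_add, w3_smul, w3_smul, w3_smul, w3_left, w3_right, smul_zero, smul_zero,
      zero_add, add_zero]
  have hvyn : ‖wd v y‖ ≤ 2 := by
    refine (wd_le' v y).trans ?_
    rw [h3]
    nlinarith [norm_nonneg y]
  have hn1 : ‖w3 x (wd v y)‖ ≤ 6 * (‖b‖ * Cz + ‖u'‖) := by
    rw [hw]
    refine (norm_add_le _ _).trans ?_
    rw [norm_smul]
    have e1 : ‖w3 z (wd v y)‖ ≤ 6 * Cz := by
      refine (w3_le _ _).trans ?_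
      have : ‖z‖ * ‖wd v y‖ ≤ Cz * 2 := mul_le_mul hzn hvyn (norm_nonneg _) hCz
      linarith
    have e2 : ‖w3 u' (wd v y)‖ ≤ 6 * ‖u'‖ := by
      refine (w3_le _ _).trans ?_
      have : ‖u'‖ * ‖wd v y‖ ≤ ‖u'‖ * 2 := mul_le_mul_of_nonneg_left hvyn (norm_nonneg _)
      linarith
    have e3 : ‖b‖ * ‖w3 z (wd v y)‖ ≤ ‖b‖ * (6 * Cz) := mul_le_mul_of_nonneg_left e1 (norm_nonneg _)
    linarith
  have hb2 : (‖b‖ * Cz) ^ 2 ≤ B * Cz ^ 2 / c ^ 2 * δ := by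
    have e1 : (‖b‖ * Cz) ^ 2 ≤ (δ / c * Cz) ^ 2 :=
      pow_le_pow_left₀ (by positivity) (mul_le_mul_of_nonneg_right hbn hCz) 2
    have e2 : (δ / c * Cz) ^ 2 = δ * δ * (Cz ^ 2 / c ^ 2) := by field_simp
    have e3 : δ * δ ≤ B * δ := mul_le_mul_of_nonneg_right hδB hδ0
    have e4 : δ * δ * (Cz ^ 2 / c ^ 2) ≤ B * δ * (Cz ^ 2 / c ^ 2) :=
      mul_le_mul_of_nonneg_right e3 (by positivity)
    have e5 : B * δ * (Cz ^ 2 / c ^ 2) = B * Cz ^ 2 / c ^ 2 * δ := by ring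
    linarith
  calc ‖w3 x (wd v y)‖ ^ 2 ≤ (6 * (‖b‖ * Cz + ‖u'‖)) ^ 2 :=
        pow_le_pow_left₀ (norm_nonneg _) hn1 2
    _ ≤ 72 * ((‖b‖ * Cz) ^ 2 + ‖u'‖ ^ 2) := by nlinarith [sq_nonneg (‖b‖ * Cz - ‖u'‖)]
    _ ≤ 72 * (B * Cz ^ 2 / c ^ 2 * δ + 2 * (B * Cz) / (c * a₀) * δ) := by linarith
    _ = 72 * (B * Cz ^ 2 / c ^ 2 + 2 * (B * Cz) / (c * a₀)) * δ := by ring

/-- **(g2)** -/
theorem g2 (hF : Fh σ ε J) (hσ : ∀ a, ‖σ a‖ = ‖a‖) (hW : WI2 σ J) :
    ∃ C : ℝ, 0 ≤ C ∧ ∀ x v y : n → k, hf σ J x x = 0 → hf σ J v v = 0 → hf σ J y y = 0 →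
      hf σ J x y = 0 → hf σ J v y = 0 →
      ‖w3 x (wd v y)‖ ^ 2 ≤ C * ‖hf σ J x v‖ * (‖wd x y‖ * ‖wd v y‖) := by
  choose C hC0 hC using fun i => g2_unit hF hσ hW i
  refine ⟨∑ i, C i, Finset.sum_nonneg fun i _ => hC0 i, ?_⟩
  intro x v y hxx hvv hyy hxy hvy
  have hCs : ∀ i, C i ≤ ∑ i, C i := fun i =>
    Finset.single_le_sum (fun i _ => hC0 i) (Finset.mem_univ i)
  have hS0 : 0 ≤ ∑ i, C i := Finset.sum_nonneg fun i _ => hC0 i
  have hR : 0 ≤ (∑ i, C i) * ‖hf σ J x v‖ * (‖wd x y‖ * ‖wd v y‖) := by positivity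
  rcases eq_or_ne (wd v y) 0 with h0 | h0
  · have : w3 x (wd v y) = 0 := by
      rw [h0]
      funext p
      simp [w3]
    rw [this, norm_zero]
    simpa using hR
  rcases eq_or_ne (wd x y) 0 with h0' | h0'
  · have e1 : w3 x (wd v y) = - w3 v (wd x y) := by
      funext p
      simp only [w3, wd, Pi.neg_apply]
      ring
    have e2 : w3 v (wd x y) = 0 := by
      rw [h0']
      funext p
      simp [w3]
    rw [e1, e2, neg_zero, norm_zero]
    simpa using hR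
  have hy0 : y ≠ 0 := by
    rintro rfl
    apply h0
    funext p
    simp [wd]
  haveI : Nonempty n := by
    by_contra hcon
    rw [not_nonempty_iff] at hcon
    exact hy0 (Subsingleton.elim _ _)
  obtain ⟨i, hi⟩ := exists_coord y
  have hyn : ‖y‖ ≠ 0 := norm_ne_zero_iff.2 hy0
  have hyi : y i ≠ 0 := norm_ne_zero_iff.1 (by rw [hi]; exact hyn)
  obtain ⟨y₁, hy₁⟩ : ∃ y₁ : n → k, y₁ = (y i)⁻¹ • y := ⟨_, rfl⟩
  have hy₁n : ‖y₁‖ = 1 := by rw [hy₁, norm_smul, norm_inv, hi, inv_mul_cancel₀ hyn]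
  have hy₁i : y₁ i = 1 := by
    rw [hy₁]
    change (y i)⁻¹ * y i = 1
    exact inv_mul_cancel₀ hyi
  have hyy₁ : y = y i • y₁ := by rw [hy₁, smul_smul, mul_inv_cancel₀ hyi, one_smul]
  have hy₁y₁ : hf σ J y₁ y₁ = 0 := by rw [hy₁, hf_smul_left, hf_smul_right, hyy]; ring
  -- a vector orthogonal to `y`, normalised
  have hnorm : ∀ w : n → k, hf σ J w w = 0 → hf σ J w y = 0 → wd w y ≠ 0 →
      ∃ (w₁ : n → k) (c s : k), c ≠ 0 ∧ w = c • w₁ + s • y₁ ∧ ‖w₁‖ = 1 ∧ w₁ i = 0 ∧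
        hf σ J w₁ w₁ = 0 ∧ hf σ J w₁ y₁ = 0 ∧ ‖c‖ * ‖y i‖ ≤ ‖wd w y‖ := by
    intro w hww hwy hw0
    set w' := w - w i • y₁ with hw'
    have hw'i : w' i = 0 := by
      change w i - w i * y₁ i = 0
      rw [hy₁i, mul_one, sub_self]
    have hwdw' : wd w y = y i • wd w' y₁ := by
      have e1 : w = w' + w i • y₁ := by rw [hw', sub_add_cancel]
      conv_lhs => rw [e1, hyy₁]
      rw [wd_smul_right', wd_add_smul]
    have hw'0 : w' ≠ 0 := by
      intro h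
      apply hw0
      rw [hwdw', h]
      funext p
      simp [wd]
    obtain ⟨l, hl⟩ := exists_coord w'
    have hw'n : ‖w'‖ ≠ 0 := norm_ne_zero_iff.2 hw'0
    have hl0 : w' l ≠ 0 := norm_ne_zero_iff.1 (by rw [hl]; exact hw'n)
    have hwy₁ : hf σ J w y₁ = 0 := by rw [hy₁, hf_smul_right, hwy, mul_zero]
    have hw'y₁ : hf σ J w' y₁ = 0 := by
      rw [hw', hf_sub_left, hf_smul_left, hwy₁, hy₁y₁, mul_zero, sub_zero]
    have hw'w' : hf σ J w' w' = 0 := by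
      have e1 : hf σ J w' w' = hf σ J w' w := by
        conv_lhs => rw [hw']
        rw [← hw', hf_sub_right, hf_smul_right, hw'y₁, mul_zero, sub_zero]
      rw [e1, hw', hf_sub_left, hf_smul_left, hww, symm0 hF hwy₁, mul_zero, sub_zero]
    refine ⟨(w' l)⁻¹ • w', w' l, w i, hl0, ?_, ?_, ?_, ?_, ?_, ?_⟩
    · rw [smul_smul, mul_inv_cancel₀ hl0, one_smul, hw', sub_add_cancel]
    · rw [norm_smul, norm_inv, hl, inv_mul_cancel₀ hw'n]
    · change (w' l)⁻¹ * w' i = 0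
      rw [hw'i, mul_zero]
    · rw [hf_smul_left, hf_smul_right, hw'w']
      ring
    · rw [hf_smul_left, hw'y₁, mul_zero]
    · rw [hwdw', norm_smul, mul_comm]
      refine mul_le_mul_of_nonneg_left ?_ (norm_nonneg _)
      have e1 : wd w' y₁ (l, i) = w' l := by
        change w' l * y₁ i - w' i * y₁ l = w' l
        rw [hy₁i, hw'i]
        ring
      rw [← e1]
      exact norm_le_pi_norm _ _
  obtain ⟨v₁, cv, sv, hcv, hv, hv1, hv2, hv3, hv4, hv5⟩ := hnorm v hvv hvy h0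
  obtain ⟨x₁, cx, sx, hcx, hx, hx1, hx2, hx3, hx4, hx5⟩ := hnorm x hxx hxy h0'
  have h9 := hC i y₁ v₁ x₁ hy₁n.le (by rw [hy₁i, norm_one]) hv1 hv2 hx1.le hy₁y₁ hv3 hx3 hv4 hx4
  have e1 : w3 x (wd v y) = (cx * cv * y i) • w3 x₁ (wd v₁ y₁) := by
    conv_lhs => rw [hx, hv, hyy₁]
    funext p
    simp only [w3, wd, Pi.add_apply, Pi.smul_apply, smul_eq_mul]
    ring
  have e2 : hf σ J x v = cx * σ cv * hf σ J x₁ v₁ := by
    conv_lhs => rw [hx, hv]
    rw [hf_add_left, hf_add_right, hf_add_right, hf_smul_left, hf_smul_left, hf_smul_left,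
      hf_smul_left, hf_smul_right, hf_smul_right, hf_smul_right, hf_smul_right, hx4,
      symm0 hF hv4, hy₁y₁]
    ring
  rw [e1, e2, norm_smul, norm_mul, norm_mul, norm_mul, norm_mul, hσ]
  have h10 : (‖cx‖ * ‖y i‖) * (‖cv‖ * ‖y i‖) ≤ ‖wd x y‖ * ‖wd v y‖ :=
    mul_le_mul hx5 hv5 (by positivity) (norm_nonneg _)
  calc (‖cx‖ * ‖cv‖ * ‖y i‖ * ‖w3 x₁ (wd v₁ y₁)‖) ^ 2
      = (‖cx‖ * ‖cv‖ * ‖y i‖) ^ 2 * ‖w3 x₁ (wd v₁ y₁)‖ ^ 2 := by ring
    _ ≤ (‖cx‖ * ‖cv‖ * ‖y i‖) ^ 2 * ((∑ i, C i) * ‖hf σ J x₁ v₁‖) :=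
        mul_le_mul_of_nonneg_left (h9.trans (mul_le_mul_of_nonneg_right (hCs i) (norm_nonneg _)))
          (sq_nonneg _)
    _ = (∑ i, C i) * (‖cx‖ * ‖cv‖ * ‖hf σ J x₁ v₁‖) * ((‖cx‖ * ‖y i‖) * (‖cv‖ * ‖y i‖)) := by ring
    _ ≤ (∑ i, C i) * (‖cx‖ * ‖cv‖ * ‖hf σ J x₁ v₁‖) * (‖wd x y‖ * ‖wd v y‖) :=
        mul_le_mul_of_nonneg_left h10 (by positivity)

end Vale.Agent.P092.H188.G2
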