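import Vale.Agent.P092.H188.G2b
import Vale.Agent.P092.H217.FD

/-!
P092 (helper188), [P3-COUNT] row (g2) in the letters of helper217 (`H217.F.An`, `H217.F.Fm`).
-/

set_option linter.all false

open Matrix Module Set

namespace Vale.Agent.P092.H188.G2

open Vale.Agent.P092.H714.Cl
open Vale.Agent.P092.H820 (wd)
open Vale.Agent.P092.H835.PlF (w3)

variable {n : Type} [Fintype n] [DecidableEq n] {k : Type} [NontriviallyNormedField k]
  [ProperSpace k] {σ : k →+* k} {ε : k} {J : Matrix n n k}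

/-- **(g2): `H217.F.An`** -/
theorem exists_an (hF : Fh σ ε J) (hσ : ∀ a, ‖σ a‖ = ‖a‖) (hW : WI2 σ J) :
    ∃ Ca : ℝ, 0 ≤ Ca ∧ H217.F.An σ J Ca := by
  obtain ⟨C, hC0, hC⟩ := g2 hF hσ hW
  refine ⟨C, hC0, fun x y m hxx hyy hmm hxy hym => ?_⟩
  have h1 := hC x m y hxx hmm hyy hxy (symm0 hF hym)
  have e1 : wd y m = (-1 : k) • wd m y := by
    funext p
    simp only [wd, Pi.smul_apply, smul_eq_mul]
    ring
  have e2 : ‖wd y m‖ = ‖wd m y‖ := by rw [e1, norm_smul, norm_neg, norm_one, one_mul]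
  have e3 : ‖w3 x (wd y m)‖ = ‖w3 x (wd m y)‖ := by
    rw [e1, w3_smul_right, norm_smul, norm_neg, norm_one, one_mul]
  rw [e2, e3]
  refine h1.trans (le_of_eq ?_)
  ring

/-- **`H217.F.Fm`** -/
theorem exists_fm [Nonempty n] (hF : Fh σ ε J) (hσ : ∀ a, ‖σ a‖ = ‖a‖) :
    ∃ β : ℝ, H217.F.Fm σ J β := by
  classical
  let T := n → k
  let g : T → n → k := fun x j => hf σ J x (Pi.single j 1)
  have hgc : Continuous g := continuous_pi fun j => continuous_hf hσ continuous_id continuous_const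
  have hK : IsCompact (Metric.sphere (0 : T) 1) := isCompact_sphere _ _
  have hpos : ∀ x ∈ Metric.sphere (0 : T) 1, 0 < ‖g x‖ := by
    intro x hx
    have hx1 : ‖x‖ = 1 := by simpa using hx
    refine norm_pos_iff.2 fun h0 => ?_
    have hx0 : x ≠ 0 := norm_pos_iff.1 (by rw [hx1]; exact one_pos)
    obtain ⟨y, hy⟩ := hF.nondeg x hx0
    apply hy
    have h1 : ∀ j, hf σ J x (Pi.single j 1) = 0 := fun j => congrFun h0 j
    have h2 : hf σ J x y = ∑ j, σ (y j) * hf σ J x (Pi.single j 1) := by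
      have e : y = ∑ j, y j • (Pi.single j 1 : n → k) := by
        funext l
        simp [Finset.sum_apply, Pi.single_apply]
      have e3 : ∀ (s : Finset n) (f : n → n → k), hf σ J x (∑ j ∈ s, f j) = ∑ j ∈ s, hf σ J x (f j) := by
        intro s f
        induction s using Finset.induction_on with
        | empty => rw [Finset.sum_empty, Finset.sum_empty, hf_zero_right]
        | insert a s ha ih => rw [Finset.sum_insert ha, Finset.sum_insert ha, hf_add_right, ih]
      conv_lhs => rw [e]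
      rw [e3]
      exact Finset.sum_congr rfl fun j _ => hf_smul_right σ J _ _ _
    rw [h2]
    exact Finset.sum_eq_zero fun j _ => by rw [h1, mul_zero]
  obtain ⟨c, hc, hc'⟩ := hK.exists_forall_le' hgc.norm.continuousOn hpos
  refine ⟨max 1 (max (bJ J) c⁻¹), le_max_left _ _, hσ, norm_symm hF hσ, ?_, ?_⟩
  · intro x y
    refine (hf_le hσ x y).trans (mul_le_mul_of_nonneg_right ?_ (by positivity))
    exact (le_max_left _ _).trans (le_max_right _ _)
  · intro x
    obtain ⟨j, hj⟩ := exists_coord (g x)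
    refine ⟨j, ?_⟩
    have hj' : ‖hf σ J x (Pi.single j 1)‖ = ‖g x‖ := hj
    rw [hj']
    have h1 : ‖x‖ ≤ c⁻¹ * ‖g x‖ := by
      rcases eq_or_ne x 0 with rfl | hx
      · rw [norm_zero]
        positivity
      obtain ⟨l, hl⟩ := exists_coord x
      have hxn : ‖x‖ ≠ 0 := norm_ne_zero_iff.2 hx
      have h2 := hc' ((x l)⁻¹ • x) (by
        rw [mem_sphere_zero_iff_norm, norm_smul, norm_inv, hl, inv_mul_cancel₀ hxn])
      have h3 : g ((x l)⁻¹ • x) = (x l)⁻¹ • g x := by
        funext j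
        exact hf_smul_left σ J _ _ _
      rw [h3, norm_smul, norm_inv, hl] at h2
      rw [inv_mul_eq_div, le_div_iff₀ hc, mul_comm]
      have h4 := mul_le_mul_of_nonneg_right h2 (norm_nonneg x)
      have h5 : ‖x‖⁻¹ * ‖g x‖ * ‖x‖ = ‖g x‖ := by field_simp
      rw [h5] at h4
      exact h4
    refine h1.trans (mul_le_mul_of_nonneg_right ?_ (norm_nonneg _))
    exact (le_max_right _ _).trans (le_max_right _ _)

end Vale.Agent.P092.H188.G2
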