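import Vale.Agent.P092.H899.G6
import Vale.Agent.P092.H370.Fo5

/-!
P092, TRACK H (helper188), the row (2) of helper337 (#11295): **the attracting point with a rate**.
A finite set `Z` of isotropic vectors spanning the space; `bp g = [ta g z]` with `z` in `Z` such that
`‖ta g z‖` is comparable with the norm of `ta g`. Every form `Fm`, every nontrivially normed field.
-/

set_option linter.all false

open Matrix Topology Module Set Filter

namespace Vale.Agent.P092.H188.HB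

open Vale.Agent.P092.H303 (FormGroup)
open Vale.Agent.P092.H714.Cl
open Vale.Agent.P092.H714.Sg (Fm)
open Vale.Agent.P092.H370.Po
open Vale.Agent.P092.H370.Fo (ptv ptv_S)
open Vale.Agent.P092.CL (ta nmM NW1 NWr AttS scal)
open Vale.Agent.P092.H899.G

section alg

variable {k : Type} [Field k] {n : Type} [Fintype n] [DecidableEq n] {σ : k →+* k} {ε : k}
  {J : Matrix n n k}

/-- The isotropic vectors span the space. -/
theorem span_iso (hF : Fm σ ε J) : Submodule.span k {v : n → k | hf σ J v v = 0} = ⊤ := by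
  obtain ⟨u, hu0, hu⟩ := hF.iso
  obtain ⟨y₀, hy₀⟩ := hF.nondeg u hu0
  have hum : u ∈ Submodule.span k {v : n → k | hf σ J v v = 0} := Submodule.subset_span hu
  have key : ∀ y, hf σ J u y ≠ 0 → y ∈ Submodule.span k {v : n → k | hf σ J v v = 0} := by
    intro y hy
    obtain ⟨α, hα⟩ := hF.corr hu hy
    have h1 : y + α • u ∈ Submodule.span k {v : n → k | hf σ J v v = 0} :=
      Submodule.subset_span hα
    have h2 : y = (y + α • u) - α • u := by abel
    rw [h2]
    exact Submodule.sub_mem _ h1 (Submodule.smul_mem _ _ hum)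
  rw [eq_top_iff]
  intro y _
  by_cases hy : hf σ J u y = 0
  · have h1 : hf σ J u (y + y₀) ≠ 0 := by
      rw [hf_add_right, hy, zero_add]
      exact hy₀
    have h2 : y = (y + y₀) - y₀ := by abel
    rw [h2]
    exact Submodule.sub_mem _ (key _ h1) (key _ hy₀)
  · exact key y hy

/-- finitely many isotropic vectors span the space -/
theorem exists_fin (hF : Fm σ ε J) : ∃ Z : Finset (n → k), (∀ z ∈ Z, hf σ J z z = 0) ∧
    Submodule.span k (Z : Set (n → k)) = ⊤ := by
  have hfg : (⊤ : Submodule k (n → k)).FG := Module.Finite.fg_top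
  rw [← span_iso hF] at hfg
  obtain ⟨Z, hZ, hs⟩ := Submodule.fg_span_iff_fg_span_finset_subset _ |>.1 hfg
  exact ⟨Z, fun z hz => hZ hz, by rw [← hs, span_iso hF]⟩

theorem Fm.nonempty (hF : Fm σ ε J) : Nonempty n := by
  obtain ⟨u, hu0, -⟩ := hF.iso
  by_contra h
  rw [not_nonempty_iff] at h
  exact hu0 (funext fun i => (h.false i).elim)

end alg

section nrm

variable {k : Type} [NontriviallyNormedField k] {n : Type} [Fintype n] [DecidableEq n]
  {σ : k →+* k} {ε : k} {J : Matrix n n k}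

/-- the same with vectors of norm at most one -/
theorem exists_fin1 (hF : Fm σ ε J) : ∃ Z : Finset (n → k),
    (∀ z ∈ Z, hf σ J z z = 0 ∧ ‖z‖ ≤ 1) ∧ Submodule.span k (Z : Set (n → k)) = ⊤ := by
  classical
  obtain ⟨Z, hZ, hs⟩ := exists_fin hF
  set B : ℝ := ∑ z ∈ Z, ‖z‖ with hB
  have hB0 : 0 ≤ B := Finset.sum_nonneg fun _ _ => norm_nonneg _
  obtain ⟨t, ht0, ht⟩ := NormedField.exists_norm_lt k (r := 1 / (B + 1)) (by positivity)
  have ht0' : t ≠ 0 := norm_pos_iff.1 ht0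
  refine ⟨Z.image (t • ·), ?_, ?_⟩
  · intro z hz
    obtain ⟨y, hy, rfl⟩ := Finset.mem_image.1 hz
    refine ⟨?_, ?_⟩
    · show hf σ J (t • y) (t • y) = 0
      rw [hf_smul_left, hf_smul_right, hZ y hy, mul_zero, mul_zero]
    · show ‖t • y‖ ≤ 1
      rw [norm_smul]
      have h1 : ‖y‖ ≤ B := Finset.single_le_sum (f := fun z => ‖z‖)
        (fun z _ => norm_nonneg z) hy
      have h2 : ‖t‖ * (B + 1) < 1 := by
        rw [lt_div_iff₀ (by positivity)] at ht
        exact ht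
      nlinarith [norm_nonneg t, norm_nonneg y]
  · rw [eq_top_iff, ← hs, Submodule.span_le]
    intro y hy
    have h1 : t • y ∈ Submodule.span k ((Z.image (t • ·) : Finset (n → k)) : Set (n → k)) :=
      Submodule.subset_span (Finset.mem_coe.2 (Finset.mem_image_of_mem _ hy))
    have h2 := Submodule.smul_mem _ t⁻¹ h1
    rwa [smul_smul, inv_mul_cancel₀ ht0', one_smul] at h2

/-- a matrix is controlled by its values on a finite spanning set -/
theorem exists_cst {Z : Finset (n → k)} (hs : Submodule.span k (Z : Set (n → k)) = ⊤)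
    (hn : Nonempty n) : ∃ c : ℝ, 0 < c ∧ ∀ M : Matrix n n k, ∃ z ∈ Z, c * nmM M ≤ ‖M *ᵥ z‖ := by
  classical
  have h1 : ∀ i : n, ∃ f : (n → k) → k, ∑ z ∈ Z, f z • z = Pi.single i (1 : k) := by
    intro i
    have h2 : (Pi.single i (1 : k) : n → k) ∈ Submodule.span k (Z : Set (n → k)) := by
      rw [hs]
      trivial
    obtain ⟨f, -, hf⟩ := Submodule.mem_span_finset.1 h2
    exact ⟨f, hf⟩
  choose f hf using h1
  have hZ : Z.Nonempty := by
    rw [Finset.nonempty_iff_ne_empty]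
    rintro rfl
    obtain ⟨i⟩ := hn
    have h3 := hf i
    rw [Finset.sum_empty] at h3
    have h4 := congrFun h3 i
    rw [Pi.zero_apply, Pi.single_eq_same] at h4
    exact zero_ne_one h4
  set K : ℝ := 1 + ∑ i : n, ∑ z ∈ Z, ‖f i z‖ with hK
  have hK0 : 0 ≤ ∑ i : n, ∑ z ∈ Z, ‖f i z‖ :=
    Finset.sum_nonneg fun _ _ => Finset.sum_nonneg fun _ _ => norm_nonneg _
  have hKp : 0 < K := by linarith
  refine ⟨K⁻¹, inv_pos.2 hKp, fun M => ?_⟩
  obtain ⟨z, hz, hmax⟩ := Finset.exists_max_image Z (fun z => ‖M *ᵥ z‖) hZ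
  refine ⟨z, hz, ?_⟩
  rw [inv_mul_le_iff₀ hKp]
  refine nmM_le (by positivity) fun i j => ?_
  have e : M i j = (M *ᵥ Pi.single j (1 : k)) i := by
    rw [mulVec_single_one]
    rfl
  rw [e, ← hf j, mulVec_sum]
  refine (norm_le_pi_norm _ i).trans ((norm_sum_le _ _).trans ?_)
  calc ∑ y ∈ Z, ‖M *ᵥ (f j y • y)‖ ≤ ∑ y ∈ Z, ‖f j y‖ * ‖M *ᵥ z‖ := by
        refine Finset.sum_le_sum fun y hy => ?_
        rw [mulVec_smul, norm_smul]
        exact mul_le_mul_of_nonneg_left (hmax y hy) (norm_nonneg _)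
    _ = (∑ y ∈ Z, ‖f j y‖) * ‖M *ᵥ z‖ := by rw [Finset.sum_mul]
    _ ≤ K * ‖M *ᵥ z‖ := by
        refine mul_le_mul_of_nonneg_right ?_ (norm_nonneg _)
        have h5 : ∑ y ∈ Z, ‖f j y‖ ≤ ∑ i : n, ∑ z ∈ Z, ‖f i z‖ :=
          Finset.single_le_sum (f := fun i => ∑ z ∈ Z, ‖f i z‖)
            (fun i _ => Finset.sum_nonneg fun _ _ => norm_nonneg _) (Finset.mem_univ j)
        linarith

/-- **The rate**: a matrix near the wall of points is at a bounded distance from a matrix of rank one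
with values in the line of `M z`, `z` any vector of the unit ball whose image is large. -/
theorem rate {M : Matrix n n k} {z : n → k} {c R : ℝ} (hc : 0 < c) (hz : ‖z‖ ≤ 1)
    (hM : 0 < nmM M) (hl : c * nmM M ≤ ‖M *ᵥ z‖) (hR : NW1 R M) :
    ∃ A : Matrix n n k, (∀ v, A *ᵥ v ∈ Submodule.span k {M *ᵥ z}) ∧
      (∀ i j, ‖M i j - A i j‖ ≤ Fintype.card n * |R| / c) ∧
      ∀ v, ‖M *ᵥ v - A *ᵥ v‖ ≤ Fintype.card n * (Fintype.card n * |R| / c) * ‖v‖ := by
  classical
  set w := M *ᵥ z with hw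
  have hwp : 0 < ‖w‖ := lt_of_lt_of_le (mul_pos hc hM) hl
  have hne : Nonempty n := by
    by_contra h
    rw [not_nonempty_iff] at h
    have : w = 0 := funext fun i => (h.false i).elim
    rw [this, norm_zero] at hwp
    exact lt_irrefl _ hwp
  obtain ⟨i₀, hi₀⟩ : ∃ i₀, ‖w‖ ≤ ‖w i₀‖ := by
    obtain ⟨i₀, -, h0⟩ := Finset.exists_max_image Finset.univ (fun i => ‖w i‖)
      Finset.univ_nonempty
    exact ⟨i₀, (pi_norm_le_iff_of_nonneg (norm_nonneg _)).2 fun i => h0 i (Finset.mem_univ i)⟩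
  have hwi : 0 < ‖w i₀‖ := hwp.trans_le hi₀
  have hwi0 : w i₀ ≠ 0 := norm_pos_iff.1 hwi
  have hent : ∀ i j, ‖M i j - w i * M i₀ j / w i₀‖ ≤ Fintype.card n * |R| / c := by
    intro i j
    have e : M i j - w i * M i₀ j / w i₀ = (M i j * w i₀ - w i * M i₀ j) / w i₀ := by
      field_simp
    rw [e, norm_div]
    have e2 : M i j * w i₀ - w i * M i₀ j =
        ∑ l, (M i j * M i₀ l - M i₀ j * M i l) * z l := by
      have e3 : ∀ a, w a = ∑ l, M a l * z l := fun a => rfl
      rw [e3, e3, Finset.mul_sum, Finset.sum_mul, ← Finset.sum_sub_distrib]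
      refine Finset.sum_congr rfl fun l _ => ?_
      ring
    have h1 : ‖M i j * w i₀ - w i * M i₀ j‖ ≤ Fintype.card n * (|R| * nmM M) := by
      rw [e2]
      refine (norm_sum_le _ _).trans ?_
      calc ∑ l, ‖(M i j * M i₀ l - M i₀ j * M i l) * z l‖ ≤ ∑ _l : n, |R| * nmM M := by
            refine Finset.sum_le_sum fun l _ => ?_
            rw [norm_mul]
            have h2 := hR i i₀ j l
            have h3 : ‖z l‖ ≤ 1 := (norm_le_pi_norm z l).trans hz
            have h4 : ‖M i j * M i₀ l - M i₀ j * M i l‖ ≤ |R| * nmM M :=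
              h2.trans (mul_le_mul_of_nonneg_right (le_abs_self R) hM.le)
            calc _ ≤ (|R| * nmM M) * 1 := mul_le_mul h4 h3 (norm_nonneg _) (by positivity)
              _ = _ := mul_one _
        _ = _ := by rw [Finset.sum_const, Finset.card_univ, nsmul_eq_mul]
    rw [div_le_div_iff₀ hwi hc]
    have h5 : c * nmM M ≤ ‖w i₀‖ := hl.trans hi₀
    have h6 : (0 : ℝ) ≤ Fintype.card n * |R| := by positivity
    calc ‖M i j * w i₀ - w i * M i₀ j‖ * c ≤ (Fintype.card n * (|R| * nmM M)) * c :=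
          mul_le_mul_of_nonneg_right h1 hc.le
      _ = Fintype.card n * |R| * (c * nmM M) := by ring
      _ ≤ Fintype.card n * |R| * ‖w i₀‖ := mul_le_mul_of_nonneg_left h5 h6
  refine ⟨Matrix.of fun i j => w i * M i₀ j / w i₀, fun v => ?_, hent, fun v => ?_⟩
  · rw [Submodule.mem_span_singleton]
    refine ⟨(∑ j, M i₀ j * v j) / w i₀, ?_⟩
    funext i
    show (∑ j, M i₀ j * v j) / w i₀ * w i = ∑ j, w i * M i₀ j / w i₀ * v j
    rw [Finset.sum_div, Finset.sum_mul]
    refine Finset.sum_congr rfl fun j _ => ?_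
    ring
  · rw [← Matrix.sub_mulVec]
    exact norm_mulVec_le (A := M - Matrix.of fun i j => w i * M i₀ j / w i₀) (by positivity)
      (fun i j => hent i j) v

/-- **The choice `bp` is attracting.** -/
theorem isBp_of {Z : Finset (n → k)} {c : ℝ} (hc : 0 < c)
    (hZ : ∀ z ∈ Z, hf σ J z z = 0 ∧ ‖z‖ ≤ 1) {bp : FormGroup σ J → SGr σ J 1}
    (h : ∀ g : FormGroup σ J, ∃ z ∈ Z, c * nmM (ta g.1) ≤ ‖ta g.1 *ᵥ z‖ ∧
      (bp g).S = Submodule.span k {ta g.1 *ᵥ z}) : IsBp 1 NW1 bp := by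
  intro R δ hδ
  refine ⟨Fintype.card n * (Fintype.card n * |R| / c) / (δ * c) + 1, fun g hg hT => ?_⟩
  obtain ⟨z, hzZ, hl, hS⟩ := h g
  have hK : (0 : ℝ) ≤ Fintype.card n * (Fintype.card n * |R| / c) := by positivity
  have hM : 0 < nmM (ta g.1) := by
    have : 0 ≤ Fintype.card n * (Fintype.card n * |R| / c) / (δ * c) := by positivity
    linarith
  obtain ⟨A, hA, -, hAv⟩ := rate hc (hZ z hzZ).2 hM hl hg
  have hwp : 0 < ‖ta g.1 *ᵥ z‖ := lt_of_lt_of_le (mul_pos hc hM) hl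
  have hz0 : z ≠ 0 := by
    rintro rfl
    rw [mulVec_zero, norm_zero] at hwp
    exact lt_irrefl _ hwp
  refine ⟨c * nmM (ta g.1), mul_pos hc hM, ⟨Submodule.span k {z}, finrank_span_singleton hz0,
    fun v hv => ?_⟩, A, fun v => by rw [hS]; exact hA v, fun v => (hAv v).trans ?_⟩
  · obtain ⟨a, rfl⟩ := Submodule.mem_span_singleton.1 hv
    rw [mulVec_smul, norm_smul, norm_smul]
    calc c * nmM (ta g.1) * (‖a‖ * ‖z‖) = ‖a‖ * (c * nmM (ta g.1) * ‖z‖) := by ring
      _ ≤ ‖a‖ * (c * nmM (ta g.1) * 1) := by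
          refine mul_le_mul_of_nonneg_left (mul_le_mul_of_nonneg_left (hZ z hzZ).2 ?_)
            (norm_nonneg _)
          exact (mul_pos hc hM).le
      _ ≤ ‖a‖ * ‖ta g.1 *ᵥ z‖ := by
          rw [mul_one]
          exact mul_le_mul_of_nonneg_left hl (norm_nonneg _)
  · refine mul_le_mul_of_nonneg_right ?_ (norm_nonneg _)
    have h1 : Fintype.card n * (Fintype.card n * |R| / c) / (δ * c) ≤ nmM (ta g.1) := by linarith
    rw [div_le_iff₀ (by positivity)] at h1
    linarith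

/-- **The attracting point with a rate** (row (2) of helper337, every form, every field). -/
theorem exists_bpZ (hF : Fm σ ε J) : ∃ Z : Finset (n → k), ∃ c > (0 : ℝ),
    ∃ bp : FormGroup σ J → SGr σ J 1,
    (∀ z ∈ Z, hf σ J z z = 0 ∧ ‖z‖ ≤ 1) ∧ IsBp 1 NW1 bp ∧
    ∀ g : FormGroup σ J, ∃ z ∈ Z, c * nmM (ta g.1) ≤ ‖ta g.1 *ᵥ z‖ ∧
      (bp g).S = Submodule.span k {ta g.1 *ᵥ z} := by
  classical
  obtain ⟨Z, hZ, hs⟩ := exists_fin1 hF
  obtain ⟨c, hc, hcM⟩ := exists_cst hs (Fm.nonempty hF)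
  haveI := Fm.nonempty hF
  have key : ∀ g : FormGroup σ J, ∃ X : SGr σ J 1, ∃ z ∈ Z,
      c * nmM (ta g.1) ≤ ‖ta g.1 *ᵥ z‖ ∧ X.S = Submodule.span k {ta g.1 *ᵥ z} := by
    intro g
    obtain ⟨z, hz, hl⟩ := hcM (ta g.1)
    have hM : 0 < nmM (ta g.1) := by
      rcases (nmM_nonneg (ta g.1)).lt_or_eq with h | h
      · exact h
      · exfalso
        have h1 : ta g.1 = 0 := by
          ext i j
          have := ent_le (ta g.1) i j
          rw [← h] at this
          exact norm_le_zero_iff.1 this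
        have h2 := ta_det g.1
        rw [h1, det_zero] at h2
        exact zero_ne_one h2
    have hwp : 0 < ‖ta g.1 *ᵥ z‖ := lt_of_lt_of_le (mul_pos hc hM) hl
    have hiso : hf σ J (ta g.1 *ᵥ z) (ta g.1 *ᵥ z) = 0 := by
      rw [pres_ta g.2]
      exact (hZ z hz).1
    exact ⟨ptv _ (norm_pos_iff.1 hwp) hiso, z, hz, hl, rfl⟩
  choose bp hbp using key
  exact ⟨Z, c, hc, bp, hZ, isBp_of hc hZ hbp, hbp⟩

end nrm

end Vale.Agent.P092.H188.HB
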