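import Vale.Agent.P092.H370.Fo5

/-!
P092, TRACK H (helper188), `pertH` (helper574 #11689): for two isotropic vectors `x`, `x'` which are
uniformly independent and almost orthogonal there is an isotropic vector `y` orthogonal to `x` with
`h(y, x')` bounded below. Every form `Fo`, every proper field.
-/

set_option linter.all false

open Matrix Topology Module Set Filter

namespace Vale.Agent.P092.H188.HC

open Vale.Agent.P092.H714.Cl
open Vale.Agent.P092.H714.Sg (Fm)
open Vale.Agent.P092.H370.Po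
open Vale.Agent.P092.H370.Fo (Fo exists_iso_prod sing_sup_span)

section alg

variable {k : Type} [Field k] {n : Type} [Fintype n] [DecidableEq n] {σ : k →+* k} {ε : k}
  {J : Matrix n n k}

theorem sing_span {x : n → k} (hx : hf σ J x x = 0) : Sing σ J (Submodule.span k {x}) := by
  unfold Sing
  rw [ort_span_left]
  intro y hy
  obtain ⟨a, rfl⟩ := Submodule.mem_span_singleton.1 hy
  rw [hf_smul_right, hx, mul_zero]

/-- two orthogonal isotropic vectors: an isotropic vector orthogonal to the first and not to the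
second -/
theorem step (hF : Fo σ ε J) {x x' : n → k} (hx : hf σ J x x = 0) (hx' : hf σ J x' x' = 0)
    (hxx : hf σ J x x' = 0) (hn : x' ∉ Submodule.span k {x}) :
    ∃ z, hf σ J z z = 0 ∧ hf σ J x z = 0 ∧ hf σ J x' z ≠ 0 := by
  have s : Sing σ J (Submodule.span k {x} ⊔ Submodule.span k {x'}) := by
    refine sing_sup_span hF (sing_span hx) hx' fun y hy => ?_
    obtain ⟨a, rfl⟩ := Submodule.mem_span_singleton.1 hy
    rw [hf_smul_left, hxx, mul_zero]
  obtain ⟨f, hf1, hf2⟩ := Submodule.exists_le_ker_of_notMem hn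
  have m1 : x ∈ Submodule.span k {x} ⊔ Submodule.span k {x'} :=
    Submodule.mem_sup_left (Submodule.mem_span_singleton_self x)
  have m2 : x' ∈ Submodule.span k {x} ⊔ Submodule.span k {x'} :=
    Submodule.mem_sup_right (Submodule.mem_span_singleton_self x')
  obtain ⟨z, hz, hzφ⟩ := exists_iso_prod hF s (f.comp (Submodule.subtype _)) (fun h => hf1 (by
    have := LinearMap.congr_fun h ⟨x', m2⟩
    exact this))
  refine ⟨z, hz, ?_, ?_⟩
  · rw [hzφ ⟨x, m1⟩]
    exact hf2 (Submodule.mem_span_singleton_self x)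
  · rw [hzφ ⟨x', m2⟩]
    exact hf1

theorem pair_ex (hF : Fo σ ε J) {x x' : n → k} (hx : hf σ J x x = 0) (hx' : hf σ J x' x' = 0)
    (hxx : hf σ J x x' = 0) (hn : x' ∉ Submodule.span k {x}) (hx0 : x ≠ 0) :
    ∃ z w, hf σ J z z = 0 ∧ hf σ J w w = 0 ∧ hf σ J z w = 0 ∧
      hf σ J w x * hf σ J z x' - hf σ J z x * hf σ J w x' ≠ 0 := by
  obtain ⟨z, hz, hxz, hx'z⟩ := step hF hx hx' hxx hn
  have hzx : hf σ J z x = 0 := hF.fm.symm0 hxz
  have hn2 : x ∉ Submodule.span k {z} := by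
    intro h
    obtain ⟨a, ha⟩ := Submodule.mem_span_singleton.1 h
    have h1 : hf σ J x' x = 0 := hF.fm.symm0 hxx
    rw [← ha, hf_smul_right, mul_eq_zero, map_eq_zero] at h1
    rcases h1 with h1 | h1
    · rw [h1, zero_smul] at ha
      exact hx0 ha.symm
    · exact hx'z h1
  obtain ⟨w, hw, hzw, hxw⟩ := step hF hz hx hzx hn2
  refine ⟨z, w, hz, hw, hzw, ?_⟩
  rw [hzx, zero_mul, sub_zero]
  have e1 : hf σ J w x ≠ 0 := fun h => hxw (hF.fm.symm0 h)
  have e2 : hf σ J z x' ≠ 0 := fun h => hx'z (hF.fm.symm0 h)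
  exact mul_ne_zero e1 e2

/-- the vector `h(w,x) z - h(z,x) w` -/
def yv (σ : k →+* k) (J : Matrix n n k) (z w x : n → k) : n → k :=
  hf σ J w x • z - hf σ J z x • w

theorem hf_sub_left' (x y z : n → k) : hf σ J (x - y) z = hf σ J x z - hf σ J y z := by
  have h := hf_add_left σ J (x - y) y z
  rw [sub_add_cancel] at h
  rw [h]
  ring

theorem hf_sub_right' (x y z : n → k) : hf σ J x (y - z) = hf σ J x y - hf σ J x z := by
  have h := hf_add_right σ J x (y - z) z
  rw [sub_add_cancel] at h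
  rw [h]
  ring

theorem yv_iso (hF : Fm σ ε J) {z w : n → k} (hz : hf σ J z z = 0) (hw : hf σ J w w = 0)
    (hzw : hf σ J z w = 0) (x : n → k) : hf σ J (yv σ J z w x) (yv σ J z w x) = 0 := by
  unfold yv
  have hwz := hF.symm0 hzw
  rw [hf_sub_left', hf_sub_right', hf_sub_right', hf_smul_left, hf_smul_left, hf_smul_left,
    hf_smul_left, hf_smul_right, hf_smul_right, hf_smul_right, hf_smul_right, hz, hw, hzw, hwz]
  ring

theorem yv_orth (hF : Fm σ ε J) (z w x : n → k) : hf σ J x (yv σ J z w x) = 0 := by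
  unfold yv
  rw [hf_sub_right', hf_smul_right, hf_smul_right, hF.herm z x, hF.herm w x]
  ring

theorem hf_yv (z w x x' : n → k) : hf σ J (yv σ J z w x) x' =
    hf σ J w x * hf σ J z x' - hf σ J z x * hf σ J w x' := by
  unfold yv
  rw [hf_sub_left', hf_smul_left, hf_smul_left]

end alg

section top

variable {k : Type} [NontriviallyNormedField k] {n : Type} [Fintype n] [DecidableEq n]
  {σ : k →+* k} {ε : k} {J : Matrix n n k}

theorem cont_hf2 (hσ : Continuous σ) : Continuous fun p : (n → k) × (n → k) =>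
    hf σ J p.1 p.2 := by
  have h : (fun p : (n → k) × (n → k) => hf σ J p.1 p.2) =
      fun p => ∑ i, p.1 i * ∑ j, J i j * σ (p.2 j) := by
    funext p
    rfl
  rw [h]
  refine continuous_finsetSum _ fun i _ => ?_
  refine ((continuous_apply i).comp continuous_fst).mul ?_
  refine continuous_finsetSum _ fun j _ => continuous_const.mul ?_
  exact hσ.comp ((continuous_apply j).comp continuous_snd)

theorem notMem_of_mn {x x' : n → k} {a b : n} (h : x a * x' b - x b * x' a ≠ 0) :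
    x ≠ 0 ∧ x' ∉ Submodule.span k {x} := by
  constructor
  · rintro rfl
    apply h
    simp
  · intro hm
    obtain ⟨t, rfl⟩ := Submodule.mem_span_singleton.1 hm
    apply h
    show x a * (t * x b) - x b * (t * x a) = 0
    ring

/-- **`pertH`, every form.** -/
theorem pert [ProperSpace k] (hF : Fo σ ε J) (hσ : Continuous σ) {δ : ℝ} (hδ : 0 < δ) :
    ∃ c : ℝ, 0 < c ∧ ∀ x x' : n → k, hf σ J x x = 0 → hf σ J x' x' = 0 → ‖x‖ ≤ 1 → ‖x'‖ ≤ 1 →
      (∃ a b, δ ≤ ‖x a * x' b - x b * x' a‖) → ‖hf σ J x x'‖ ≤ c →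
      ∃ y, hf σ J y y = 0 ∧ hf σ J x y = 0 ∧ ‖y‖ ≤ 2 ∧ c ≤ ‖hf σ J y x'‖ := by
  classical
  have c2 := cont_hf2 (J := J) hσ
  have cL : ∀ z : n → k, Continuous fun x => hf σ J z x := fun z =>
    c2.comp (continuous_const.prodMk continuous_id)
  -- the compact set
  let K : Set ((n → k) × (n → k)) := {p | hf σ J p.1 p.1 = 0 ∧ hf σ J p.2 p.2 = 0 ∧ ‖p.1‖ ≤ 1 ∧
    ‖p.2‖ ≤ 1 ∧ ∃ a b, δ ≤ ‖p.1 a * p.2 b - p.1 b * p.2 a‖}
  have hKc : IsClosed K := by
    have h1 : IsClosed {p : (n → k) × (n → k) | hf σ J p.1 p.1 = 0} :=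
      isClosed_eq (c2.comp (continuous_fst.prodMk continuous_fst)) continuous_const
    have h2 : IsClosed {p : (n → k) × (n → k) | hf σ J p.2 p.2 = 0} :=
      isClosed_eq (c2.comp (continuous_snd.prodMk continuous_snd)) continuous_const
    have h3 : IsClosed {p : (n → k) × (n → k) | ‖p.1‖ ≤ 1} :=
      isClosed_le continuous_fst.norm continuous_const
    have h4 : IsClosed {p : (n → k) × (n → k) | ‖p.2‖ ≤ 1} :=
      isClosed_le continuous_snd.norm continuous_const
    have h5 : IsClosed {p : (n → k) × (n → k) | ∃ a b, δ ≤ ‖p.1 a * p.2 b - p.1 b * p.2 a‖} := by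
      have e : {p : (n → k) × (n → k) | ∃ a b, δ ≤ ‖p.1 a * p.2 b - p.1 b * p.2 a‖} =
          ⋃ a, ⋃ b, {p | δ ≤ ‖p.1 a * p.2 b - p.1 b * p.2 a‖} := by
        ext p
        simp only [mem_setOf_eq, mem_iUnion]
      rw [e]
      refine isClosed_iUnion_of_finite fun a => isClosed_iUnion_of_finite fun b => ?_
      refine isClosed_le continuous_const (Continuous.norm ?_)
      exact (((continuous_apply a).comp continuous_fst).mul
        ((continuous_apply b).comp continuous_snd)).sub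
        (((continuous_apply b).comp continuous_fst).mul
        ((continuous_apply a).comp continuous_snd))
    exact h1.inter (h2.inter (h3.inter (h4.inter h5)))
  have hK : IsCompact K := by
    refine IsCompact.of_isClosed_subset
      ((isCompact_closedBall (0 : n → k) 1).prod (isCompact_closedBall (0 : n → k) 1)) hKc ?_
    rintro p ⟨-, -, h3, h4, -⟩
    exact ⟨mem_closedBall_zero_iff.2 h3, mem_closedBall_zero_iff.2 h4⟩
  -- the cover
  let I := {q : (n → k) × (n → k) × ℕ // hf σ J q.1 q.1 = 0 ∧ hf σ J q.2.1 q.2.1 = 0 ∧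
    hf σ J q.1 q.2.1 = 0 ∧ ∀ x : n → k, ‖x‖ ≤ 1 → ‖yv σ J q.1 q.2.1 x‖ ≤ 2}
  let U : I → Set ((n → k) × (n → k)) := fun q =>
    {p | 1 / ((q.1.2.2 : ℝ) + 1) < ‖hf σ J q.1.2.1 p.1 * hf σ J q.1.1 p.2 -
      hf σ J q.1.1 p.1 * hf σ J q.1.2.1 p.2‖} ∪ {p | 1 / ((q.1.2.2 : ℝ) + 1) < ‖hf σ J p.1 p.2‖}
  have hUo : ∀ q, IsOpen (U q) := by
    intro q
    refine IsOpen.union (isOpen_lt continuous_const (Continuous.norm ?_))
      (isOpen_lt continuous_const c2.norm)
    exact (((cL _).comp continuous_fst).mul ((cL _).comp continuous_snd)).sub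
      (((cL _).comp continuous_fst).mul ((cL _).comp continuous_snd))
  have hI0 : Nonempty I := by
    refine ⟨⟨(0, 0, 0), ?_, ?_, ?_, ?_⟩⟩
    · exact hf_zero_left σ J 0
    · exact hf_zero_left σ J 0
    · exact hf_zero_left σ J 0
    · intro x _
      unfold yv
      rw [smul_zero, sub_zero, norm_zero]
      norm_num
  have hcov : K ⊆ ⋃ q, U q := by
    rintro p ⟨h1, h2, h3, h4, a, b, hab⟩
    by_cases h0 : hf σ J p.1 p.2 = 0
    · have hne : p.1 a * p.2 b - p.1 b * p.2 a ≠ 0 := by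
        intro h
        rw [h, norm_zero] at hab
        exact absurd hab (not_le.2 hδ)
      obtain ⟨hx0, hn⟩ := notMem_of_mn hne
      obtain ⟨z, w, hz, hw, hzw, hφ⟩ := pair_ex hF h1 h2 h0 hn hx0
      -- scaling
      have hcy : Continuous fun x => yv σ J z w x := by
        unfold yv
        exact ((cL w).smul continuous_const).sub ((cL z).smul continuous_const)
      obtain ⟨B, hB⟩ := (isCompact_closedBall (0 : n → k) 1).exists_bound_of_continuousOn
        hcy.continuousOn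
      obtain ⟨t, ht0, ht⟩ := NormedField.exists_norm_lt k (r := 1 / (|B| + 1)) (by positivity)
      have ht0' : t ≠ 0 := norm_pos_iff.1 ht0
      have hyt : ∀ x, yv σ J (t • z) (t • w) x = (t * t) • yv σ J z w x := by
        intro x
        unfold yv
        rw [hf_smul_left, hf_smul_left, smul_sub, smul_smul, smul_smul, smul_smul, smul_smul]
        congr 2 <;> ring
      have hφt : hf σ J (t • w) p.1 * hf σ J (t • z) p.2 -
          hf σ J (t • z) p.1 * hf σ J (t • w) p.2 ≠ 0 := by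
        rw [hf_smul_left, hf_smul_left, hf_smul_left, hf_smul_left]
        have e : t * hf σ J w p.1 * (t * hf σ J z p.2) - t * hf σ J z p.1 * (t * hf σ J w p.2) =
            (t * t) * (hf σ J w p.1 * hf σ J z p.2 - hf σ J z p.1 * hf σ J w p.2) := by ring
        rw [e]
        exact mul_ne_zero (mul_ne_zero ht0' ht0') hφ
      obtain ⟨m, hm⟩ := exists_nat_one_div_lt (norm_pos_iff.2 hφt)
      refine mem_iUnion.2 ⟨⟨(t • z, t • w, m), ?_, ?_, ?_, ?_⟩, Or.inl hm⟩
      · show hf σ J (t • z) (t • z) = 0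
        rw [hf_smul_left, hf_smul_right, hz, mul_zero, mul_zero]
      · show hf σ J (t • w) (t • w) = 0
        rw [hf_smul_left, hf_smul_right, hw, mul_zero, mul_zero]
      · show hf σ J (t • z) (t • w) = 0
        rw [hf_smul_left, hf_smul_right, hzw, mul_zero, mul_zero]
      · intro x hx
        show ‖yv σ J (t • z) (t • w) x‖ ≤ 2
        rw [hyt, norm_smul, norm_mul]
        have h5 := hB x (mem_closedBall_zero_iff.2 hx)
        have h6 : ‖t‖ * (|B| + 1) < 1 := by
          rw [lt_div_iff₀ (by positivity)] at ht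
          exact ht
        have h7 : ‖t‖ ≤ 1 := by nlinarith [norm_nonneg t, abs_nonneg B]
        have h8 : ‖yv σ J z w x‖ ≤ |B| + 1 := by linarith [le_abs_self B]
        calc ‖t‖ * ‖t‖ * ‖yv σ J z w x‖ ≤ 1 * ‖t‖ * (|B| + 1) := by gcongr
          _ = ‖t‖ * (|B| + 1) := by ring
          _ ≤ 2 := by linarith
    · obtain ⟨m, hm⟩ := exists_nat_one_div_lt (norm_pos_iff.2 h0)
      obtain ⟨⟨⟨z, w, m'⟩, hz, hw, hzw, hy⟩⟩ := hI0
      exact mem_iUnion.2 ⟨⟨(z, w, m), hz, hw, hzw, hy⟩, Or.inr hm⟩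
  obtain ⟨s, hs⟩ := hK.elim_finite_subcover U hUo hcov
  set M : ℕ := s.sup fun q => q.1.2.2 with hM
  refine ⟨1 / ((M : ℝ) + 1), by positivity, fun x x' hx hx' hx1 hx1' hab hc => ?_⟩
  have hmem := hs (show (x, x') ∈ K from ⟨hx, hx', hx1, hx1', hab⟩)
  simp only [mem_iUnion] at hmem
  obtain ⟨q, hq, hU⟩ := hmem
  have hqM : q.1.2.2 ≤ M := Finset.le_sup (f := fun q : I => q.1.2.2) hq
  have hle : 1 / ((M : ℝ) + 1) ≤ 1 / ((q.1.2.2 : ℝ) + 1) := by
    have : (q.1.2.2 : ℝ) ≤ M := by exact_mod_cast hqM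
    exact one_div_le_one_div_of_le (by positivity) (by linarith)
  rcases hU with hU | hU
  · refine ⟨yv σ J q.1.1 q.1.2.1 x, yv_iso hF.fm q.2.1 q.2.2.1 q.2.2.2.1 x, yv_orth hF.fm _ _ _,
      q.2.2.2.2 x hx1, ?_⟩
    rw [hf_yv]
    exact hle.trans (le_of_lt hU)
  · exfalso
    have h9 : 1 / ((q.1.2.2 : ℝ) + 1) < ‖hf σ J x x'‖ := hU
    linarith

/-- **`pertH`** in the letters of helper574 / helper337 -/
theorem pertH [ProperSpace k] (hF : Frm σ ε J) (hσ : Continuous σ) {δ : ℝ} (hδ : 0 < δ) :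
    ∃ c : ℝ, 0 < c ∧ ∀ x x' : n → k, hf σ J x x = 0 → hf σ J x' x' = 0 → ‖x‖ ≤ 1 → ‖x'‖ ≤ 1 →
      (∃ a b, δ ≤ ‖x a * x' b - x b * x' a‖) → ‖hf σ J x x'‖ ≤ c →
      ∃ y, hf σ J y y = 0 ∧ hf σ J x y = 0 ∧ ‖y‖ ≤ 2 ∧ c ≤ ‖hf σ J y x'‖ := pert hF.fo hσ hδ

end top

end Vale.Agent.P092.H188.HC
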