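import Vale.Agent.P092.UN.StP
import Vale.Agent.P092.UN.StG
import Vale.Agent.P092.H188.LatP

/-!
P092 (helper188), [SX-LATP]: the class `UN.LatticeP` (every isogeny type, compact kernels) and its
reduction to lattices of products of groups `PGL_n(k)`; it contains `UN.LatticeG`.
-/

set_option linter.all false

open Set Topology Matrix

namespace Vale.Agent.P092.H188.LatP

theorem lattice_iff {G : Type} [Group G] [TopologicalSpace G] (L : Subgroup G) :
    UN.IsLattice L ↔ H515.St.IsLattice L :=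
  ⟨fun h => ⟨h.disc, h.covol⟩, fun h => ⟨h.disc, h.covol⟩⟩

/-- **[SX-LATP]** the lattices of `UN.LatticeP` are lattices of products of groups `PGL_n(k)` -/
theorem exists_pgl0 {Γ : Type} [Group Γ] (h : UN.LatticeP Γ) :
    UN.ICC Γ ∧ ∃ (J : Type) (_ : Fintype J) (N : J → ℕ) (k : J → Type)
      (_ : ∀ j, NontriviallyNormedField (k j)) (_ : ∀ j, ProperSpace (k j))
      (i : Γ →* ∀ j, PG (k j) (N j + 1)), (∀ j, UN.LocK (k j)) ∧ (∀ j, 2 ≤ N j) ∧
        Function.Injective i ∧ H515.St.IsLattice i.range := by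
  obtain ⟨hicc, J, hJ, hdec, k, hk, n, E, hE, hT, p, i, hEt, hkk, hp, hS, hi, hl⟩ := h
  obtain ⟨N, rfl⟩ : ∃ N : J → ℕ, n = fun j => N j + 1 :=
    ⟨fun j => n j - 1, funext fun j => (Nat.sub_add_cancel
      (le_trans (by norm_num) (hkk j).2.2)).symm⟩
  haveI : ∀ j, ProperSpace (k j) := fun j => (hkk j).1
  have h1 := latP (n := fun j => N j + 1) hicc (fun j => Nat.succ_ne_zero _) p hp (fun j s => by
    obtain ⟨e, he⟩ := hS j (SpecialLinearGroup.toGL s) s.2
    exact ⟨e, he⟩) i hi ((lattice_iff _).1 hl)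
  exact ⟨hicc, J, hJ, N, k, hk, fun j => (hkk j).1, p.comp i, fun j => (hkk j).2.1,
    fun j => by have : 3 ≤ N j + 1 := (hkk j).2.2
                omega, h1.1, h1.2⟩

/-- the products of groups of the class `UN.TypeG` are included -/
theorem latticeP_of_latticeG {Γ : Type} [Group Γ] (h : UN.LatticeG Γ) : UN.LatticeP Γ := by
  classical
  obtain ⟨hicc, J, hJ, E, hE, hT, i, ht, hi, hl⟩ := h
  choose htg ht2 k hk n p hP hL hn hc hp hz hs using ht
  haveI : ∀ j, IsTopologicalGroup (E j) := htg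
  haveI : ∀ j, T2Space (PG (k j) (n j)) := fun j => t2_pg _ _
  haveI : ∀ j, LocallyCompactSpace (PG (k j) (n j)) := fun j => by
    haveI := hP j
    exact lc_pg _ _
  let P : (∀ j, E j) →* ∀ j, PG (k j) (n j) :=
    { toFun := fun e j => p j (e j)
      map_one' := by
        funext j
        exact map_one (p j)
      map_mul' := fun x y => by
        funext j
        exact map_mul (p j) (x j) (y j) }
  have hPp : IsProperMap P := by
    have h1 : ∀ j, IsProperMap (p j) := fun j =>
      isProperMap_iff_isCompact_preimage.2 ⟨hc j, fun K hK => hp j K hK⟩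
    exact IsProperMap.pi_map h1
  refine ⟨hicc, J, hJ, inferInstance, k, hk, n, ∀ j, E j, inferInstance, inferInstance, P, i,
    inferInstance, fun j => ⟨hP j, hL j, hn j⟩, hPp, fun j g hg => ?_, hi, hl⟩
  obtain ⟨e, he⟩ := hs j g hg
  refine ⟨Pi.mulSingle j e, ?_⟩
  funext j'
  change p j' (Pi.mulSingle j e j') = _
  by_cases h : j' = j
  · subst h
    rw [Pi.mulSingle_eq_same, Pi.mulSingle_eq_same, he]
  · rw [Pi.mulSingle_eq_of_ne h, Pi.mulSingle_eq_of_ne h, map_one]

end Vale.Agent.P092.H188.LatP
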