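import Vale.Agent.P092.H719.Lat3
import Vale.Agent.P092.H188.LatPU

/-!
P092 (helper188), [SX-LATP]: `UN.Super` for the class `UN.LatticeP` from the core statement of the
products of groups `PGL_n(k)`.
-/

set_option linter.all false

open Set Topology Matrix

namespace Vale.Agent.P092.H188.LatP

/-- `UN.Super` for the lattices of `UN.LatticeP`, from the core statement of the products of groups
`PGL_n(k)` -/
theorem super_latticeP (h : ∀ (I : Type) [Fintype I] (N : I → ℕ) (k : I → Type)
    [∀ j, NontriviallyNormedField (k j)] [∀ j, ProperSpace (k j)], (∀ j, H515.St.LocK (k j)) →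
    (∀ j, 2 ≤ N j) → SN.CoreE (∀ j, RC.PG (k j) (N j + 1))) :
    ∀ (Γ : Type) [Group Γ], UN.LatticeP Γ → UN.Super Γ := by
  intro Γ _ hΓ
  obtain ⟨hicc, I, hI, N, k, hk, hP, i, hL, hN, hi, hl⟩ := exists_pgl0 hΓ
  exact UN.super_of (SN.super_of_coreE (h I N k (fun j => (UN.locK_iff (k j)).1 (hL j)) hN)
    hicc i hi hl)

end Vale.Agent.P092.H188.LatP
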