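import Vale.Agent.P092.H370.Fo5
import Vale.Agent.P092.H631.P2Prox

/-!
P092, TEAM P, stage CL-O (helper188), part 1: **density of opposition** under the group `EU` of the
Eichler elements, every hermitian form (no skew scalars are used). The Eichler elements are on
polynomial curves `1 + t N₁ + t² N₂` through `1`; a determinant which is nonzero at one element of
`EU` is nonzero at elements of `EU` arbitrarily close to `1`.
-/

set_option linter.all false

open Matrix Module Set Topology Filter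

namespace Vale.Agent.P092.H188.O

open Vale.Agent.P092.H303 (FormGroup)
open Vale.Agent.P092.H714.Cl
open Vale.Agent.P092.H714.Sg (Fm)
open Vale.Agent.P092.H370.Po
open Vale.Agent.P092.H370.Fo (EU EP ei eim EU_le ei_mem_EU Fo)
open Vale.Agent.P092.H631.P2 (OppS Op₁ hf_sp)
open Vale.Agent.P092.H100.Gr (Gr Fr sp)

section alg

variable {n : Type} [Fintype n] [DecidableEq n] {k : Type} [Field k]
  {σ : k →+* k} {ε : k} {J : Matrix n n k} {j : ℕ}

/-- the Gram matrix of two families -/
def gm (σ : k →+* k) (J : Matrix n n k) (x y : Fin j → n → k) : Matrix (Fin j) (Fin j) k :=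
  fun a b => hf σ J (x a) (y b)

/-- the rows -/
def rw' (x : Fin j → n → k) : Matrix (Fin j) n k := x

/-- the columns -/
def cl' (σ : k →+* k) (J : Matrix n n k) (y : Fin j → n → k) : Matrix n (Fin j) k :=
  fun i b => (J *ᵥ fun l => σ (y b l)) i

theorem gm_mul (x y : Fin j → n → k) (g : Matrix n n k) :
    gm σ J (fun a => x a ᵥ* g) y = rw' x * g * cl' σ J y := by
  ext a b
  rfl

theorem hf_lin (c : Fin j → k) (v : Fin j → n → k) (y : n → k) :
    hf σ J (∑ a, c a • v a) y = ∑ a, c a * hf σ J (v a) y := by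
  classical
  have h : ∀ s : Finset (Fin j), hf σ J (∑ a ∈ s, c a • v a) y = ∑ a ∈ s, c a * hf σ J (v a) y := by
    intro s
    induction s using Finset.induction_on with
    | empty => rw [Finset.sum_empty, Finset.sum_empty, hf_zero_left]
    | insert a s ha ih =>
      rw [Finset.sum_insert ha, Finset.sum_insert ha, hf_add_left, hf_smul_left, ih]
  exact h _

theorem hf_neg_right' (x y : n → k) : hf σ J x (-y) = -hf σ J x y := by
  have h := hf_smul_right σ J (-1) x y
  rw [neg_one_smul, map_neg, map_one, neg_one_mul] at h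
  exact h

theorem hf_neg_left' (x y : n → k) : hf σ J (-x) y = -hf σ J x y := by
  have h := hf_smul_left σ J (-1) x y
  rw [neg_one_smul, neg_one_mul] at h
  exact h

/-- opposition is the non vanishing of the Gram determinant -/
theorem op_iff {v w : Fr k n j} : Op₁ σ J (sp v).1 (sp w).1 ↔ (gm σ J v.1 w.1).det ≠ 0 := by
  constructor
  · intro h h0
    obtain ⟨c, hc, hc0⟩ := Matrix.exists_vecMul_eq_zero_iff.2 h0
    have h1 : (∑ a, c a • v.1 a) = 0 := by
      refine h _ (Submodule.sum_mem _ fun a _ => Submodule.smul_mem _ _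
        (Submodule.subset_span ⟨a, rfl⟩)) (hf_sp fun b => ?_)
      rw [hf_lin]
      exact congrFun hc0 b
    apply hc
    funext a
    exact (Fintype.linearIndependent_iff.1 v.2) c h1 a
  · intro h x hx hy
    change x ∈ Submodule.span k (range v.1) at hx
    rw [Submodule.mem_span_range_iff_exists_fun] at hx
    obtain ⟨c, rfl⟩ := hx
    have h1 : c ᵥ* gm σ J v.1 w.1 = 0 := by
      funext b
      have h2 := hy (w.1 b) (Submodule.subset_span ⟨b, rfl⟩)
      rw [hf_lin] at h2
      exact h2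
    have h2 : c = 0 := by
      by_contra hc
      exact h (Matrix.exists_vecMul_eq_zero_iff.1 ⟨c, hc, h1⟩)
    rw [h2]
    simp

theorem gm_swap (hF : Fm σ ε J) (x y : Fin j → n → k) :
    gm σ J y x = ε • ((gm σ J x y)ᵀ.map σ) := by
  ext a b
  exact hF.herm (x b) (y a)

theorem op_symm (hF : Fm σ ε J) {X Y : Gr k n j} (h : Op₁ σ J X.1 Y.1) : Op₁ σ J Y.1 X.1 := by
  obtain ⟨v, rfl⟩ := H100.Gr.sp_surj X
  obtain ⟨w, rfl⟩ := H100.Gr.sp_surj Y
  rw [op_iff] at h ⊢
  rw [gm_swap hF, det_smul, ← RingHom.mapMatrix_apply, ← RingHom.map_det, det_transpose]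
  have he : ε ≠ 0 := by
    rintro rfl
    have := hF.eps
    rw [mul_zero] at this
    exact zero_ne_one this
  exact mul_ne_zero (pow_ne_zero _ he) (by rwa [Ne, map_eq_zero])

/-- opposition in helper370's form -/
theorem opp_of (hF : Fm σ ε J) {X Y : SGr σ J j} (h : OppS X Y) :
    H370.Fo.Opp σ J X.S Y.S := by
  refine ⟨fun y hy hx => ?_, fun x hx hy => h x hx fun y hy' => hF.symm0 (hy y hy')⟩
  exact op_symm hF h y hy fun x hx' => hF.symm0 (hx x hx')

/-! ### Curves -/

/-- the Eichler elements with the parameters `t v`, `t² c` -/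
theorem ep_curve {u v : n → k} {c : k} (h : EP σ ε J u v c) {t : k} (ht : σ t = t) :
    EP σ ε J u (t • v) (t * t * c) where
  uu := h.uu
  vu := by rw [hf_smul_left, h.vu, mul_zero]
  vv := by
    rw [hf_smul_left, hf_smul_right, map_mul, map_mul, ht]
    linear_combination t * t * h.vv

/-- the linear part -/
def n1 (σ : k →+* k) (ε : k) (J : Matrix n n k) (u v : n → k) : Matrix n n k :=
  vecMulVec (J *ᵥ fun i => σ (u i)) v + vecMulVec (J *ᵥ fun i => σ (v i)) (-ε • u)

/-- the quadratic part -/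
def n2 (σ : k →+* k) (ε : k) (J : Matrix n n k) (u : n → k) (c : k) : Matrix n n k :=
  vecMulVec (J *ᵥ fun i => σ (u i)) ((ε * c) • u)

theorem ei_curve (hF : Fm σ ε J) {u v : n → k} {c : k} (h : EP σ ε J u v c) {t : k}
    (ht : σ t = t) : (ei σ ε J u (t • v) (t * t * c)).1 =
      1 + t • n1 σ ε J u v + (t * t) • n2 σ ε J u c := by
  have h' := ep_curve h ht
  refine ext_iff_vecMul.mpr fun x => ?_
  rw [H370.Fo.vecMul_ei hF h', n1, n2, vecMul_add, vecMul_add, vecMul_one, vecMul_smul,
    vecMul_smul, vecMul_add, vecMul_vecMulVec, vecMul_vecMulVec, vecMul_vecMulVec]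
  have e1 : x ⬝ᵥ (J *ᵥ fun i => σ (u i)) = hf σ J x u := rfl
  have e2 : x ⬝ᵥ (J *ᵥ fun i => σ (v i)) = hf σ J x v := rfl
  rw [e1, e2, hf_smul_right, ht]
  module

/-- a determinant along the curve is a polynomial -/
theorem exists_poly (A : Matrix (Fin j) n k) (B : Matrix n (Fin j) k) (N₁ N₂ : Matrix n n k) :
    ∃ p : Polynomial k, ∀ t, p.eval t = (A * (1 + t • N₁ + (t * t) • N₂) * B).det := by
  refine ⟨(A.map Polynomial.C * (1 + (Polynomial.X : Polynomial k) • N₁.map Polynomial.C +
    ((Polynomial.X : Polynomial k) * Polynomial.X) • N₂.map Polynomial.C) *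
      B.map Polynomial.C).det, fun t => ?_⟩
  have hA : (A.map Polynomial.C).map (Polynomial.evalRingHom t) = A := by
    ext i l
    simp
  have hB : (B.map Polynomial.C).map (Polynomial.evalRingHom t) = B := by
    ext i l
    simp
  have hM : (1 + (Polynomial.X : Polynomial k) • N₁.map Polynomial.C +
      ((Polynomial.X : Polynomial k) * Polynomial.X) • N₂.map Polynomial.C).map
      (Polynomial.evalRingHom t) = 1 + t • N₁ + (t * t) • N₂ := by
    ext i l
    by_cases h : i = l
    · subst h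
      simp
      exact mul_comm _ _
    · simp [Matrix.one_apply_ne h]
      exact mul_comm _ _
  rw [← Polynomial.coe_evalRingHom, RingHom.map_det, RingHom.mapMatrix_apply, Matrix.map_mul,
    Matrix.map_mul, hA, hB, hM]

end alg

section top

variable {n : Type} [Fintype n] [DecidableEq n] {k : Type} [NontriviallyNormedField k]
  {σ : k →+* k} {ε : k} {J : Matrix n n k} {j : ℕ}

/-- a nonzero polynomial does not vanish at the high powers of a small element -/
theorem eval_pow_ne {p : Polynomial k} (hp : p ≠ 0) {w : k} (hw0 : w ≠ 0) (hw : ‖w‖ < 1) :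
    ∀ᶠ N : ℕ in atTop, p.eval (w ^ N) ≠ 0 := by
  have hinj : Function.Injective fun N : ℕ => w ^ N := by
    have h1 : Function.Injective fun N : ℕ => ‖w‖ ^ N :=
      (pow_right_strictAnti₀ (norm_pos_iff.2 hw0) hw).injective
    intro a b hab
    apply h1
    change ‖w‖ ^ a = ‖w‖ ^ b
    rw [← norm_pow, ← norm_pow]
    exact congrArg _ hab
  have h2 : {N : ℕ | p.eval (w ^ N) = 0}.Finite := by
    have h3 : {x : k | p.eval x = 0}.Finite := Polynomial.finite_setOf_isRoot hp
    exact h3.preimage hinj.injOn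
  have h4 := h2.compl_mem_cofinite
  rw [Nat.cofinite_eq_atTop] at h4
  exact h4

/-- **nearby elements of `EU`** -/
theorem near_EU (hF : Fm σ ε J) {w : k} (hw0 : w ≠ 0) (hw : ‖w‖ < 1) (hσw : σ w = w)
    {g : SpecialLinearGroup n k} (hg : g ∈ EU σ ε J) :
    ∀ (A : Matrix (Fin j) n k) (B : Matrix n (Fin j) k), (A * g.1 * B).det ≠ 0 →
      ∀ O ∈ 𝓝 (1 : SpecialLinearGroup n k), ∃ g' ∈ EU σ ε J, g' ∈ O ∧
        (A * g'.1 * B).det ≠ 0 := by
  have hw' : ∀ N : ℕ, σ (w ^ N) = w ^ N := fun N => by rw [map_pow, hσw]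
  -- the generators
  have gen : ∀ {u v : n → k} {c : k}, EP σ ε J u v c → ∀ (A : Matrix (Fin j) n k)
      (B : Matrix n (Fin j) k), (A * (ei σ ε J u v c).1 * B).det ≠ 0 →
      ∀ O ∈ 𝓝 (1 : SpecialLinearGroup n k), ∃ g' ∈ EU σ ε J, g' ∈ O ∧
        (A * g'.1 * B).det ≠ 0 := by
    intro u v c h A B hd O hO
    obtain ⟨p, hp⟩ := exists_poly A B (n1 σ ε J u v) (n2 σ ε J u c)
    have h1 := ei_curve hF h (map_one σ)
    rw [one_smul, one_mul, one_mul, one_smul, one_smul] at h1
    have hp0 : p ≠ 0 := by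
      intro h0
      have h2 := hp 1
      rw [h0, Polynomial.eval_zero, one_smul, one_mul, one_smul, ← h1] at h2
      exact hd h2.symm
    have h3 : Tendsto (fun N : ℕ => w ^ N) atTop (𝓝 0) :=
      tendsto_pow_atTop_nhds_zero_of_norm_lt_one hw
    have h4 : Tendsto (fun N : ℕ => ei σ ε J u (w ^ N • v) (w ^ N * w ^ N * c)) atTop
        (𝓝 (1 : SpecialLinearGroup n k)) := by
      refine isInducing_val.tendsto_nhds_iff.2 ?_
      have h5 : Tendsto (fun t : k => 1 + t • n1 σ ε J u v + (t * t) • n2 σ ε J u c) (𝓝 0)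
          (𝓝 (1 : Matrix n n k)) := by
        have h6 : Continuous fun t : k => 1 + t • n1 σ ε J u v + (t * t) • n2 σ ε J u c := by
          fun_prop
        have h7 := h6.tendsto 0
        simpa only [zero_smul, mul_zero, add_zero] using h7
      refine (h5.comp h3).congr fun N => ?_
      exact (ei_curve hF h (hw' N)).symm
    obtain ⟨N, h8, h9⟩ := ((h4.eventually hO).and (eval_pow_ne hp0 hw0 hw)).exists
    refine ⟨_, ei_mem_EU (ep_curve h (hw' N)), h8, ?_⟩
    rw [ei_curve hF h (hw' N), ← hp]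
    exact h9
  -- the induction
  have hinv : ∀ {u v : n → k} {c : k}, EP σ ε J u v c →
      (ei σ ε J u v c)⁻¹ = ei σ ε J u (-v) (ε * σ c) ∧ EP σ ε J u (-v) (ε * σ c) := by
    intro u v c h
    have h' : EP σ ε J u (-v) (ε * σ c) := by
      refine ⟨h.uu, ?_, ?_⟩
      · rw [hf_neg_left', h.vu, neg_zero]
      · rw [hf_neg_left', hf_neg_right', neg_neg, map_mul, hF.seps, hF.inv]
        linear_combination h.vv + c * hF.eps
    refine ⟨inv_eq_of_mul_eq_one_right (ext_vecMul fun x => ?_), h'⟩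
    rw [vecMul_mul', H370.Fo.vecMul_ei hF h, H370.Fo.vecMul_ei hF h', hf_neg_right']
    have huv : hf σ J u v = 0 := hF.symm0 h.vu
    simp only [sub_eq_add_neg, ← neg_smul, hf_add_left, hf_smul_left, h.uu, h.vu, huv]
    have h3 : hf σ J v v = -c - ε * σ c := by linear_combination h.vv
    rw [h3]
    have h4 : x ᵥ* (1 : SpecialLinearGroup n k).1 = x := vecMul_one' x
    rw [h4]
    module
  unfold EU at hg
  induction hg using Subgroup.closure_induction'' with
  | mem x hx =>
    obtain ⟨u, v, c, h, rfl⟩ := hx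
    exact gen h
  | inv_mem x hx =>
    obtain ⟨u, v, c, h, rfl⟩ := hx
    rw [(hinv h).1]
    exact gen (hinv h).2
  | one => exact fun A B hd O hO => ⟨1, one_mem _, mem_of_mem_nhds hO, hd⟩
  | mul x y _ _ hx hy =>
    intro A B hd O hO
    obtain ⟨O₁, hO₁, O₂, hO₂, h1⟩ : ∃ O₁ ∈ 𝓝 (1 : SpecialLinearGroup n k), ∃ O₂ ∈
        𝓝 (1 : SpecialLinearGroup n k), ∀ a ∈ O₁, ∀ b ∈ O₂, a * b ∈ O := by
      have h2 : Tendsto (fun p : SpecialLinearGroup n k × SpecialLinearGroup n k => p.1 * p.2)
          (𝓝 (1, 1)) (𝓝 (1 * 1)) := continuous_mul.tendsto _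
      rw [mul_one, nhds_prod_eq] at h2
      obtain ⟨P₁, hP₁, P₂, hP₂, hP⟩ := eventually_prod_iff.1 (h2.eventually hO)
      exact ⟨_, hP₁, _, hP₂, fun a ha b hb => hP ha hb⟩
    have h3 : (A * x.1 * (y.1 * B)).det ≠ 0 := by
      have e : A * x.1 * (y.1 * B) = A * (x * y).1 * B := by
        change _ = A * (x.1 * y.1) * B
        simp only [Matrix.mul_assoc]
      rw [e]
      exact hd
    obtain ⟨x', hx', hxO, hxd⟩ := hx A (y.1 * B) h3 O₁ hO₁
    have h4 : (A * x'.1 * y.1 * B).det ≠ 0 := by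
      rw [Matrix.mul_assoc (A * x'.1)]
      exact hxd
    obtain ⟨y', hy', hyO, hyd⟩ := hy (A * x'.1) B h4 O₂ hO₂
    refine ⟨x' * y', mul_mem hx' hy', h1 _ hxO _ hyO, ?_⟩
    have e : A * (x' * y').1 * B = A * x'.1 * y'.1 * B := by
      change A * (x'.1 * y'.1) * B = _
      simp only [Matrix.mul_assoc]
    rw [e]
    exact hyd

end top

end Vale.Agent.P092.H188.O
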