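import Vale.Agent.P092.H188.O1

/-!
P092, TEAM P, stage CL-O (helper188), part 2: **proximality** (`prox1`, `prox2` of `CL.Geo`) for
every group `G` between `EU` and the isometry group of a form `hyp r ε J₀`, every hermitian form
(`Fo`, no skew scalars).
-/

set_option linter.all false

open Matrix Module Set Topology Filter

namespace Vale.Agent.P092.H188.O

open Vale.Agent.P092.H303 (FormGroup Idx hyp torF torF_mem)
open Vale.Agent.P092.H714.Cl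
open Vale.Agent.P092.H714.Sg (Fm)
open Vale.Agent.P092.H370.Po
open Vale.Agent.P092.H370.Fo (EU EP ei eim EU_le ei_mem_EU Fo)
open Vale.Agent.P092.H631.P2 (OppS Op₁ hf_sp cf mem_cf iL iR iL_inj iR_inj hf_eR hf_eL lj mj
  mj_iL iL_of_mj wj dg_wj contr_SGr opp_open not_opp_iff)
open Vale.Agent.P092.H100.Gr (Gr Fr sp)
open Vale.Agent.P092.H514.NI (Covol)

section alg

variable {n : Type} [Fintype n] [DecidableEq n] {k : Type} [Field k]
  {σ : k →+* k} {ε : k} {J : Matrix n n k} {j r : ℕ}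

theorem op_act {g : SpecialLinearGroup n k} (hg : g ∈ FormGroup σ J)
    {X Y : Submodule k (n → k)} (h : Op₁ σ J X Y) : Op₁ σ J (act g X) (act g Y) := by
  intro x hx hxy
  obtain ⟨z, hz, rfl⟩ := mem_act.1 hx
  rw [h z hz fun y hy => ?_, zero_vecMul]
  rw [← mem_formGroup.1 hg]
  exact hxy _ (vecMul_mem_act hy)

theorem sing_sp (hF : Fm σ ε J) {v : Fr k n j} (h : ∀ a b, hf σ J (v.1 a) (v.1 b) = 0) :
    Sing σ J (sp v).1 := by
  intro x hx y hy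
  refine hf_sp (fun a => ?_) y hy
  exact hF.symm0 (hf_sp (fun b => h a b) x hx)

/-- two orthogonal points are in a common maximal space -/
theorem common_max (hF : Fo σ ε J) (hW : WI σ J r) (hr : 2 ≤ r) {x y : SGr σ J 1}
    (h : Col x y) : ∃ l : SGr σ J r, Inc x l ∧ Inc y l := by
  obtain ⟨Y, hY, hYd⟩ := hW.1
  have hs : Sing σ J (x.S ⊔ y.S) := by
    unfold Sing
    rw [ort_sup_left, ort_sup_right, ort_sup_right]
    exact ⟨⟨x.sing, h⟩, ⟨fun a ha b hb => hF.fm.symm0 (h b hb a ha), y.sing⟩⟩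
  have hd : finrank k ↥(x.S ⊔ y.S) ≤ r := by
    have h1 := Submodule.finrank_add_le_finrank_add_finrank x.S y.S
    rw [x.dim, y.dim] at h1
    omega
  obtain ⟨Z, hZ1, hZ2, hZ3⟩ := H370.Fo.exists_above hF hs hY hd hYd.ge
  exact ⟨SGr.mk' Z hZ2 hZ3, le_sup_left.trans hZ1, le_sup_right.trans hZ1⟩

/-- **opposite points** -/
theorem opp1_iff (hF : Fo σ ε J) (hW : WI σ J r) (hr : 2 ≤ r) {x y : SGr σ J 1} :
    (∀ l : SGr σ J r, Inc x l → ¬ Inc y l) ↔ OppS x y := by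
  constructor
  · intro h
    by_contra hn
    obtain ⟨P, h1, h2⟩ := not_opp_iff.1 hn
    rw [inc_iff_eq] at h1
    subst h1
    obtain ⟨l, h3, h4⟩ := common_max hF hW hr h2
    exact h l h3 h4
  · intro h l h1 h2
    refine not_opp_iff.2 ⟨x, le_rfl, fun a ha b hb => l.sing a (h1 ha) b (h2 hb)⟩ h

/-- **opposite maximal spaces** -/
theorem opp2_iff (hF : Fo σ ε J) (hW : WI σ J r) {l l' : SGr σ J r} :
    (∀ x : SGr σ J 1, Inc x l → ¬ Inc x l') ↔ OppS l l' := by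
  constructor
  · intro h
    by_contra hn
    obtain ⟨P, h1, h2⟩ := not_opp_iff.1 hn
    refine h P h1 fun v hv => ?_
    by_contra hvl
    have hvv : hf σ J v v = 0 := P.sing v hv v hv
    have h3 := hW.2 _ (H370.Fo.sing_sup_span hF l'.sing hvv
      fun x hx => hF.fm.symm0 (h2 v hv x hx))
    rw [finrank_sup_span hvl, l'.dim] at h3
    omega
  · intro h x h1 h2
    exact not_opp_iff.2 ⟨x, h1, h2.col⟩ h

end alg

section hyp

variable {ι : Type} [Fintype ι] [DecidableEq ι] {k : Type} [Field k]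
  {σ : k →+* k} {ε : k} {r j : ℕ} {J₀ : Matrix ι ι k}

/-- the attracting space -/
def cP (hF : Fm σ ε (hyp r ε J₀)) (hj : j ≤ r) : SGr σ (hyp r ε J₀) j :=
  SGr.mk' (sp (cf (iL ι hj) (iL_inj hj))).1 (sing_sp hF fun a b => by
    change hf σ (hyp r ε J₀) (Pi.single (iL ι hj a) 1)
      (Pi.single (.inl (.inl (Fin.castLE hj b))) 1) = 0
    rw [hf_eL, Pi.single_eq_of_ne (by simp [iL]), zero_mul]) (sp (cf (iL ι hj) (iL_inj hj))).2

/-- the repelling space -/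
def cM (hF : Fm σ ε (hyp r ε J₀)) (hj : j ≤ r) : SGr σ (hyp r ε J₀) j :=
  SGr.mk' (sp (cf (iR ι hj) (iR_inj hj))).1 (sing_sp hF fun a b => by
    change hf σ (hyp r ε J₀) (Pi.single (iR ι hj a) 1)
      (Pi.single (.inl (.inr (Fin.castLE hj b))) 1) = 0
    rw [hf_eR, Pi.single_eq_of_ne (by simp [iR])]) (sp (cf (iR ι hj) (iR_inj hj))).2

theorem opp_cM (hF : Fm σ ε (hyp r ε J₀)) (hj : j ≤ r) {L : SGr σ (hyp r ε J₀) j}
    (h : OppS L (cM hF hj)) : ∀ x ∈ L.S, (∀ a, x (iL ι hj a) = 0) → x = 0 := by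
  intro x hx hxa
  refine h x hx (hf_sp fun a => ?_)
  change hf σ (hyp r ε J₀) x (Pi.single (.inl (.inr (Fin.castLE hj a))) 1) = 0
  rw [hf_eR]
  exact hxa a

theorem cP_coord (hF : Fm σ ε (hyp r ε J₀)) (hj : j ≤ r) {x : Idx r ι → k}
    (hx : x ∈ (cP hF hj).S) (i : Idx r ι) (hi : ∀ a, iL ι hj a ≠ i) : x i = 0 := by
  change x ∈ Submodule.span k (range fun a : Fin j => (Pi.single (iL ι hj a) 1 : Idx r ι → k))
    at hx
  rw [Submodule.mem_span_range_iff_exists_fun] at hx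
  obtain ⟨c, rfl⟩ := hx
  rw [Finset.sum_apply, Finset.sum_eq_zero]
  intro a _
  simp [Pi.single_eq_of_ne (hi a).symm]

theorem opp_cP_cM (hF : Fm σ ε (hyp r ε J₀)) (hj : j ≤ r) : OppS (cP hF hj) (cM hF hj) := by
  intro x hx hy
  funext i
  by_cases h : ∃ a, iL ι hj a = i
  · obtain ⟨a, rfl⟩ := h
    have h1 := hy (Pi.single (iR ι hj a) 1) (Submodule.subset_span ⟨a, rfl⟩)
    have h2 := hf_eR (σ := σ) (ε := ε) (J₀ := J₀) x (Fin.castLE hj a)
    exact h2.symm.trans h1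
  · push Not at h
    exact cP_coord hF hj hx i h

end hyp

section top

variable {n : Type} [Fintype n] [DecidableEq n] {k : Type} [NontriviallyNormedField k]
  {σ : k →+* k} {ε : k} {J : Matrix n n k} {j : ℕ}

/-- **density of opposition** -/
theorem opp_dense (hF : Fo σ ε J) {w : k} (hw0 : w ≠ 0) (hw : ‖w‖ < 1) (hσw : σ w = w)
    {yp ym : SGr σ J j} (h0 : OppS yp ym) {U : Set (SGr σ J j)} (hU : IsOpen U)
    (hUn : U.Nonempty) (Y : SGr σ J j) : ∃ X ∈ U, OppS X Y := by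
  obtain ⟨X, hX⟩ := hUn
  -- an element of `EU` which moves `X` to a space opposite to `Y`
  obtain ⟨g₁, hg₁, e₁, -⟩ := H370.Fo.trans_sing hF ym.sing Y.sing (ym.dim.trans Y.dim.symm)
  have hg₁F := EU_le hF.fm hg₁
  obtain ⟨g₂, hg₂, e₂, -⟩ := H370.Fo.trans_sing hF X.sing (yp.sing.act hg₁F)
    (by rw [finrank_act, X.dim, yp.dim])
  have h1 : Op₁ σ J (act g₂ X.S) Y.S := by
    rw [e₂, ← e₁]
    exact op_act hg₁F h0
  obtain ⟨v, hv⟩ := H100.Gr.sp_surj X.1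
  obtain ⟨y, hy⟩ := H100.Gr.sp_surj Y.1
  have hvS : X.S = (sp v).1 := congrArg Subtype.val hv.symm
  have hyS : Y.S = (sp y).1 := congrArg Subtype.val hy.symm
  have key : ∀ g : SpecialLinearGroup n k, Op₁ σ J (act g X.S) Y.S ↔
      (rw' v.1 * g.1 * cl' σ J y.1).det ≠ 0 := by
    intro g
    rw [hvS, hyS, ← sp_actF, op_iff, ← gm_mul]
    rfl
  rw [key] at h1
  -- a neighbourhood of `1`
  have h2 : {g : FormGroup σ J | g⁻¹ • X ∈ U} ∈ 𝓝 (1 : FormGroup σ J) := by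
    have h3 : Continuous fun g : FormGroup σ J => g⁻¹ • X := by fun_prop
    refine h3.continuousAt.preimage_mem_nhds (hU.mem_nhds ?_)
    rw [inv_one, one_smul]
    exact hX
  obtain ⟨O, hO, hOs⟩ := (mem_nhds_subtype _ (1 : FormGroup σ J) _).1 h2
  obtain ⟨g, hg, hgO, hgd⟩ := near_EU hF.fm hw0 hw hσw hg₂ _ _ h1 O hO
  rw [← key] at hgd
  have h3 : (⟨g, EU_le hF.fm hg⟩ : FormGroup σ J) ∈ {g : FormGroup σ J | g⁻¹ • X ∈ U} :=
    hOs hgO
  refine ⟨_, h3, ?_⟩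
  have e : ((⟨g, EU_le hF.fm hg⟩ : FormGroup σ J)⁻¹ • X).S = act g X.S := by
    rw [smul_S]
    have : ((⟨g, EU_le hF.fm hg⟩ : FormGroup σ J)⁻¹ : FormGroup σ J).1⁻¹ = g := inv_inv g
    rw [this]
  change Op₁ σ J _ _
  rw [e]
  exact hgd

/-- the hypothesis `htr` of `prox_abs` -/
theorem opp_htr (hF : Fo σ ε J) {w : k} (hw0 : w ≠ 0) (hw : ‖w‖ < 1) (hσw : σ w = w)
    {yp ym : SGr σ J j} (h : OppS yp ym) (y₀ : SGr σ J j) (U : Set (SGr σ J j)) (hU : IsOpen U)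
    (hUn : U.Nonempty) : ∃ g : FormGroup σ J, g.1 ∈ EU σ ε J ∧ g • ym = y₀ ∧ g • yp ∈ U := by
  obtain ⟨X, hX, hXY⟩ := opp_dense hF hw0 hw hσw h hU hUn y₀
  obtain ⟨g, hg, h1, h2⟩ := H370.Fo.trans_opp hF X.sing y₀.sing yp.sing ym.sing
    (opp_of hF.fm hXY) (opp_of hF.fm h) (X.dim.trans yp.dim.symm) (X.dim.trans y₀.dim.symm)
    (yp.dim.trans ym.dim.symm)
  refine ⟨⟨g, EU_le hF.fm hg⟩, hg, SGr.ext ?_, ?_⟩
  · rw [smul_S, ← h2, act_inv_act]
  · have e : (⟨g, EU_le hF.fm hg⟩ : FormGroup σ J) • yp = X := by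
      refine SGr.ext ?_
      rw [smul_S, ← h1, act_inv_act]
    rw [e]
    exact hX

end top

section sub

theorem cont_smul_sub {A X : Type*} [Group A] [TopologicalSpace A] [TopologicalSpace X]
    [MulAction A X] [ContinuousSMul A X] (G : Subgroup A) :
    Continuous fun p : G × X => p.1 • p.2 := by
  have h : Continuous fun p : A × X => p.1 • p.2 := continuous_smul
  exact h.comp ((continuous_subtype_val.comp continuous_fst).prodMk continuous_snd)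

end sub

section main

variable {ι : Type} [Fintype ι] [DecidableEq ι] {k : Type} [NontriviallyNormedField k]
  [ProperSpace k] {σ : k →+* k} {ε : k} {r j : ℕ} {J₀ : Matrix ι ι k}
  {G : Subgroup (FormGroup σ (hyp r ε J₀))}

/-- **proximality** on the singular `j`-spaces, `j ≤ r` -/
theorem proxG (hF : Fo σ ε (hyp r ε J₀)) (hσ : Continuous σ)
    (hG : ∀ g : FormGroup σ (hyp r ε J₀), g.1 ∈ EU σ ε (hyp r ε J₀) → g ∈ G) {w : k}
    (hw0 : w ≠ 0) (hw : ‖w‖ < 1) (hσw : σ w = w) (hwG : wj hw0 hσw j ∈ G)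
    (hcl : IsClosed (G : Set (FormGroup σ (hyp r ε J₀)))) (hj : j ≤ r)
    (Γ : Subgroup G) (hΓ : Covol Γ) (z : SGr σ (hyp r ε J₀) j)
    (D : Set (SGr σ (hyp r ε J₀) j)) (hD : IsCompact D) (hDo : ∀ y ∈ D, OppS y z)
    (U : Set (SGr σ (hyp r ε J₀) j)) (hU : IsOpen U) (hUn : U.Nonempty) :
    ∃ γ ∈ Γ, ∀ y ∈ D, γ • y ∈ U := by
  haveI : LocallyCompactSpace (FormGroup σ (hyp r ε J₀)) := H303.locallyCompact_formGroup hσ _
  haveI : SecondCountableTopology (FormGroup σ (hyp r ε J₀)) := H303.secondCountable_formGroup _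
  haveI : LocallyCompactSpace G := hcl.isClosedEmbedding_subtypeVal.locallyCompactSpace
  haveI : SecondCountableTopology G := TopologicalSpace.Subtype.secondCountableTopology _
  have hc : Continuous fun p : G × SGr σ (hyp r ε J₀) j => p.1 • p.2 := cont_smul_sub G
  refine H673.Px.prox_abs (Y := SGr σ (hyp r ε J₀) j) hc Γ hΓ
    (⟨wj (ε := ε) (J₀ := J₀) hw0 hσw j, hwG⟩ : G) (cP hF.fm hj) (cM hF.fm hj) OppS
    (opp_open hσ) (fun g x y h => h.smul g.1) ?_ ?_ z hD hDo hU hUn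
  · intro D hD hDo U hU
    have h := contr_SGr (g := wj (ε := ε) (J₀ := J₀) hw0 hσw j) hw hw0 (m := mj r j ι)
      (dg_wj hw0 hσw j) (iL ι hj) (mj_iL hj) (cP hF.fm hj) (fun x hx => mem_cf (iL_inj hj)
        fun i hi => hx i (iL_of_mj hj hi)) hD (fun L hL => opp_cM hF.fm hj (hDo L hL)) hU
    filter_upwards [h] with N hN y hy
    have e : ∀ (a : G) (y : SGr σ (hyp r ε J₀) j), a • y = a.1 • y := fun _ _ => rfl
    rw [e, Subgroup.coe_pow]
    exact hN y hy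
  · intro y₀ U hU hUn
    obtain ⟨g, hg, h1, h2⟩ := opp_htr hF hw0 hw hσw (opp_cP_cM hF.fm hj) y₀ U hU hUn
    exact ⟨⟨g, hG g hg⟩, h1, h2⟩

/-- **`prox1`** -/
theorem prox1G (hF : Fo σ ε (hyp r ε J₀)) (hσ : Continuous σ) (hW : WI σ (hyp r ε J₀) r)
    (hr : 2 ≤ r) (hG : ∀ g : FormGroup σ (hyp r ε J₀), g.1 ∈ EU σ ε (hyp r ε J₀) → g ∈ G) {w : k}
    (hw0 : w ≠ 0) (hw : ‖w‖ < 1) (hσw : σ w = w) (hwG : wj hw0 hσw 1 ∈ G)
    (hcl : IsClosed (G : Set (FormGroup σ (hyp r ε J₀))))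
    (Γ : Subgroup G) (hΓ : Covol Γ) (z : SGr σ (hyp r ε J₀) 1)
    (D : Set (SGr σ (hyp r ε J₀) 1)) (hD : IsCompact D)
    (hDo : ∀ y ∈ D, ∀ l : SGr σ (hyp r ε J₀) r, Inc y l → ¬ Inc z l)
    (U : Set (SGr σ (hyp r ε J₀) 1)) (hU : IsOpen U) (hUn : U.Nonempty) :
    ∃ γ ∈ Γ, ∀ y ∈ D, γ • y ∈ U :=
  proxG hF hσ hG hw0 hw hσw hwG hcl (le_trans one_le_two hr) Γ hΓ z D hD
    (fun y hy => (opp1_iff hF hW hr).1 (hDo y hy)) U hU hUn

/-- **`prox2`** -/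
theorem prox2G (hF : Fo σ ε (hyp r ε J₀)) (hσ : Continuous σ) (hW : WI σ (hyp r ε J₀) r)
    (hG : ∀ g : FormGroup σ (hyp r ε J₀), g.1 ∈ EU σ ε (hyp r ε J₀) → g ∈ G) {w : k}
    (hw0 : w ≠ 0) (hw : ‖w‖ < 1) (hσw : σ w = w) (hwG : wj hw0 hσw r ∈ G)
    (hcl : IsClosed (G : Set (FormGroup σ (hyp r ε J₀))))
    (Γ : Subgroup G) (hΓ : Covol Γ) (z : SGr σ (hyp r ε J₀) r)
    (D : Set (SGr σ (hyp r ε J₀) r)) (hD : IsCompact D)
    (hDo : ∀ y ∈ D, ∀ x : SGr σ (hyp r ε J₀) 1, Inc x y → ¬ Inc x z)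
    (U : Set (SGr σ (hyp r ε J₀) r)) (hU : IsOpen U) (hUn : U.Nonempty) :
    ∃ γ ∈ Γ, ∀ y ∈ D, γ • y ∈ U :=
  proxG hF hσ hG hw0 hw hσw hwG hcl le_rfl Γ hΓ z D hD
    (fun y hy => (opp2_iff hF hW).1 (hDo y hy)) U hU hUn

end main

end Vale.Agent.P092.H188.O
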