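import Vale.Agent.P092.CL.LtO
import Vale.Agent.P092.H899.G5
import Vale.Agent.P092.H188.O2

/-!
P092, TEAM P, stage CL-O (helper188), part 3: the size `nmM (ta g)` on the closed subgroups `G` of
the isometry groups (the fields `nm_*` and `z_*` of `CL.Geo`), raw letters.
-/

set_option linter.all false

open Matrix Module Set Topology Filter

namespace Vale.Agent.P092.H188.O

open Vale.Agent.P092.H303 (FormGroup Idx hyp torF torF_mem dgF)
open Vale.Agent.P092.H714.Cl
open Vale.Agent.P092.H370.Po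
open Vale.Agent.P092.CL (nmM ta scal)
open Vale.Agent.P092.H899.G (ent_le nmM_nonneg nmM_le nmM_mul ta_mul ta_det)

variable {n : Type} [Fintype n] [DecidableEq n] {k : Type} [NontriviallyNormedField k]
  {σ : k →+* k} {J : Matrix n n k}

theorem nmM_pos [Nonempty n] (g : SpecialLinearGroup n k) : 0 < nmM (ta g) := by
  refine lt_of_le_of_ne (nmM_nonneg _) fun h => ?_
  have h1 : ta g = 0 := by
    ext i j
    have h2 := ent_le (ta g) i j
    rw [← h] at h2
    exact norm_le_zero_iff.1 h2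
  have h3 := ta_det g
  rw [h1, det_zero] at h3
  exact zero_ne_one h3

theorem nmM_transpose (A : Matrix n n k) : nmM Aᵀ = nmM A := by
  refine le_antisymm (nmM_le (nmM_nonneg _) fun i j => ent_le A j i)
    (nmM_le (nmM_nonneg _) fun i j => ent_le Aᵀ j i)

theorem nmM_map (hσ : ∀ x, ‖σ x‖ = ‖x‖) (A : Matrix n n k) : nmM (A.map σ) ≤ nmM A :=
  nmM_le (nmM_nonneg _) fun i j => by
    rw [Matrix.map_apply, hσ]
    exact ent_le A i j

theorem nmM_ta (g : SpecialLinearGroup n k) : nmM (ta g) = nmM (g⁻¹).1 := nmM_transpose _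

theorem nm_mul_SL : ∃ C : ℝ, 0 < C ∧ ∀ g h : SpecialLinearGroup n k,
    nmM (ta (g * h)) ≤ C * (nmM (ta g) * nmM (ta h)) := by
  refine ⟨Fintype.card n + 1, by positivity, fun g h => ?_⟩
  rw [ta_mul]
  refine (nmM_mul _ _).trans ?_
  exact mul_le_mul_of_nonneg_right (by linarith) (mul_nonneg (nmM_nonneg _) (nmM_nonneg _))

/-- the inverse of an isometry -/
theorem nm_inv_form (hJ : J.det ≠ 0) (hσ : ∀ x, ‖σ x‖ = ‖x‖) : ∃ C : ℝ, 0 < C ∧
    ∀ g : SpecialLinearGroup n k, g ∈ FormGroup σ J → nmM (ta g⁻¹) ≤ C * nmM (ta g) := by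
  refine ⟨Fintype.card n * (Fintype.card n * (nmM J * nmM J⁻¹)) + 1, ?_, fun g hg => ?_⟩
  · have h1 := nmM_nonneg J
    have h2 := nmM_nonneg J⁻¹
    positivity
  · have h1 : (g⁻¹).1 * J * ((g⁻¹).1.map σ)ᵀ = J := inv_mem hg
    have h2 : g.1 * (g⁻¹).1 = 1 := congrArg Subtype.val (mul_inv_cancel g)
    have h3 : g.1 = J * ((g⁻¹).1.map σ)ᵀ * J⁻¹ := by
      have h4 : g.1 * J = J * ((g⁻¹).1.map σ)ᵀ := by
        calc g.1 * J = g.1 * ((g⁻¹).1 * J * ((g⁻¹).1.map σ)ᵀ) := by rw [h1]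
          _ = (g.1 * (g⁻¹).1) * J * ((g⁻¹).1.map σ)ᵀ := by simp only [Matrix.mul_assoc]
          _ = _ := by rw [h2, Matrix.one_mul]
      rw [← h4, Matrix.mul_assoc, mul_nonsing_inv J (isUnit_iff_ne_zero.2 hJ), Matrix.mul_one]
    have h5 : nmM (ta g⁻¹) = nmM g.1 := by
      rw [nmM_ta, inv_inv]
    have h6 : nmM ((g⁻¹).1.map σ)ᵀ ≤ nmM (ta g) := by
      rw [nmM_transpose, nmM_ta]
      exact nmM_map hσ _
    have c0 : (0 : ℝ) ≤ Fintype.card n := Nat.cast_nonneg _
    have j1 := nmM_nonneg J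
    have j2 := nmM_nonneg J⁻¹
    have t0 := nmM_nonneg (ta g)
    calc nmM (ta g⁻¹) = nmM (J * ((g⁻¹).1.map σ)ᵀ * J⁻¹) := by rw [h5, ← h3]
      _ ≤ Fintype.card n * (nmM (J * ((g⁻¹).1.map σ)ᵀ) * nmM J⁻¹) := nmM_mul _ _
      _ ≤ Fintype.card n * ((Fintype.card n * (nmM J * nmM (ta g))) * nmM J⁻¹) := by
          refine mul_le_mul_of_nonneg_left (mul_le_mul_of_nonneg_right ?_ j2) c0
          exact (nmM_mul _ _).trans
            (mul_le_mul_of_nonneg_left (mul_le_mul_of_nonneg_left h6 j1) c0)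
      _ = Fintype.card n * (Fintype.card n * (nmM J * nmM J⁻¹)) * nmM (ta g) := by ring
      _ ≤ _ := mul_le_mul_of_nonneg_right (by linarith) t0

theorem continuous_nmM : Continuous (nmM : Matrix n n k → ℝ) :=
  (continuous_norm : Continuous fun A : n → n → k => ‖A‖)

theorem continuous_ta : Continuous fun g : SpecialLinearGroup n k => ta g := by
  have h : Continuous fun g : SpecialLinearGroup n k => (g⁻¹).1 :=
    isInducing_val.continuous.comp continuous_inv
  exact h.matrix_transpose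

theorem continuous_nm : Continuous fun g : SpecialLinearGroup n k => nmM (ta g) :=
  continuous_nmM.comp continuous_ta

/-- the size is proper on the closed subgroups -/
theorem nm_cpt_SL [ProperSpace k] {G : Subgroup (SpecialLinearGroup n k)}
    (hG : IsClosed (G : Set (SpecialLinearGroup n k))) (C : ℝ) :
    IsCompact {g : SpecialLinearGroup n k | g ∈ G ∧ nmM (ta g) ≤ C} := by
  have h1 : IsCompact {g : SpecialLinearGroup n k | nmM g.1 ≤ C} := by
    have h2 : IsCompact {A : Matrix n n k | nmM A ≤ C} := by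
      have h3 : IsCompact {A : n → n → k | ‖A‖ ≤ C} := by
        have h4 := isCompact_closedBall (0 : n → n → k) C
        have e : {A : n → n → k | ‖A‖ ≤ C} = Metric.closedBall (0 : n → n → k) C := by
          ext A
          rw [Metric.mem_closedBall, dist_zero_right, Set.mem_setOf_eq]
        rw [e]
        exact h4
      exact h3
    exact isClosedEmbedding_SLn.isCompact_preimage h2
  have h4 := h1.inv
  have e : {g : SpecialLinearGroup n k | g ∈ G ∧ nmM (ta g) ≤ C} =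
      (G : Set (SpecialLinearGroup n k)) ∩ {g : SpecialLinearGroup n k | nmM g.1 ≤ C}⁻¹ := by
    ext g
    constructor
    · rintro ⟨h, h'⟩
      refine ⟨h, ?_⟩
      rw [Set.mem_inv]
      change nmM (g⁻¹).1 ≤ C
      rw [← nmM_ta]
      exact h'
    · rintro ⟨h, h'⟩
      refine ⟨h, ?_⟩
      rw [Set.mem_inv] at h'
      change nmM (g⁻¹).1 ≤ C at h'
      rw [nmM_ta]
      exact h'
  rw [e]
  exact h4.inter_left hG

/-- the powers of a torus element -/
theorem nm_torF {r : ℕ} {ι : Type} [Fintype ι] [DecidableEq ι] {w : k} (hw0 : w ≠ 0)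
    (hw : ‖w‖ < 1) (l : Fin r → ℤ) (i : Fin r) (hl : l i = 1) :
    Tendsto (fun N : ℕ => nmM (ta (torF r ι hw0 l ^ N))) atTop atTop := by
  have h1 : 1 < ‖w‖⁻¹ := (one_lt_inv₀ (norm_pos_iff.2 hw0)).2 hw
  refine tendsto_atTop_mono (fun N => ?_) (tendsto_pow_atTop_atTop_of_one_lt h1)
  have h2 := H303.torF_pow_row (ι := ι) r hw0 (-l) (.inl (.inl i)) N 1
  rw [mul_one, ← H631.P2.torF_inv, inv_pow] at h2
  have h3 := congrFun h2 (.inl (.inl i))
  have h4 : ((1 : SpecialLinearGroup (Idx r ι) k).1 (.inl (.inl i)) (.inl (.inl i)) : k) = 1 :=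
    Matrix.one_apply_eq _
  rw [Pi.smul_apply, h4, smul_eq_mul, mul_one] at h3
  have h5 : dgF r ι w (-l) (.inl (.inl i)) = w⁻¹ := by
    change w ^ (-l) i = _
    rw [Pi.neg_apply, hl, _root_.zpow_neg_one]
  rw [h5] at h3
  have h6 := ent_le (ta (torF r ι hw0 l ^ N)) (.inl (.inl i)) (.inl (.inl i))
  have h7 : ta (torF r ι hw0 l ^ N) (.inl (.inl i)) (.inl (.inl i)) = w⁻¹ ^ N := h3
  rw [h7, norm_pow, norm_inv] at h6
  exact h6

end Vale.Agent.P092.H188.O
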