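import Vale.Agent.P092.H188.O3

/-!
P092, TEAM P, stage CL-O (helper188), part 4: the fields `nm_*`, `z_comm`, `z_P`, `z_M`, `prox1`,
`prox2` of `CL.Geo` for the letters `ltO` of the orthogonal groups.
-/

set_option linter.all false

open scoped Matrix
open Matrix Module Set Topology Filter MeasureTheory

namespace Vale.Agent.P092.H188.O

open Vale.Agent.P092.H303 (FormGroup Idx hyp torF torF_mem dgF)
open Vale.Agent.P092.H714.Cl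
open Vale.Agent.P092.H370.Po
open Vale.Agent.P092.H370.Fo (EU EU_le Fo Wf)
open Vale.Agent.P092.H631.P2 (wj lj)
open Vale.Agent.P092.H514.NI (Covol)
open Vale.Agent.P092.CL (nmM ta scal OF EUF b1O b2O ltO)

section scalars

variable {n : Type} [Fintype n] [DecidableEq n] {k : Type} [NontriviallyNormedField k]
  {σ : k →+* k} {J : Matrix n n k} {j : ℕ}

/-- scalars fix every singular space -/
theorem smul_scal {z : FormGroup σ J} (hz : z.1 ∈ scal k n) (X : SGr σ J j) : z • X = X := by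
  obtain ⟨c, hc⟩ : z.1⁻¹ ∈ scal k n := inv_mem hz
  refine SGr.eq_of_le ?_
  rw [smul_S]
  intro x hx
  obtain ⟨y, hy, rfl⟩ := mem_act.1 hx
  rw [hc, vecMul_smul, vecMul_one]
  exact X.S.smul_mem c hy

theorem scal_comm {z : SpecialLinearGroup n k} (hz : z ∈ scal k n) (g : SpecialLinearGroup n k) :
    z * g = g * z := by
  obtain ⟨c, hc⟩ := hz
  refine Subtype.ext ?_
  change z.1 * g.1 = g.1 * z.1
  rw [hc, smul_mul_assoc, Matrix.one_mul, mul_smul_comm, Matrix.mul_one]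

end scalars

section letters

variable {k : Type} [NontriviallyNormedField k] [MeasurableSpace k] {ι : Type} [Fintype ι]
  [DecidableEq ι] {J₀ : Matrix ι ι k} {a : k}

theorem nm_pos (h : OF J₀) (s : ℕ) (ha : a ≠ 0) (μ₁ : Measure k) (μ₂ : Measure (ι → k)) :
    ∀ g, 0 < (ltO h s ha μ₁ μ₂).nm g := fun g => nmM_pos g.1.1

theorem nm_mul (h : OF J₀) (s : ℕ) (ha : a ≠ 0) (μ₁ : Measure k) (μ₂ : Measure (ι → k)) :
    ∃ C : ℝ, 0 < C ∧ ∀ g g', (ltO h s ha μ₁ μ₂).nm (g * g') ≤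
      C * ((ltO h s ha μ₁ μ₂).nm g * (ltO h s ha μ₁ μ₂).nm g') := by
  obtain ⟨C, hC, hc⟩ := nm_mul_SL (n := Idx (s + 2) ι) (k := k)
  exact ⟨C, hC, fun g g' => hc g.1.1 g'.1.1⟩

theorem nm_inv (h : OF J₀) (s : ℕ) (ha : a ≠ 0) (μ₁ : Measure k) (μ₂ : Measure (ι → k)) :
    ∃ C : ℝ, 0 < C ∧ ∀ g, (ltO h s ha μ₁ μ₂).nm g⁻¹ ≤ C * (ltO h s ha μ₁ μ₂).nm g := by
  have hJ : (hyp (s + 2) (1 : k) J₀).det ≠ 0 := by
    intro h0
    have h1 := congrArg Matrix.det (h.kk s)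
    rw [det_mul, h0, zero_mul, det_one] at h1
    exact zero_ne_one h1
  obtain ⟨C, hC, hc⟩ := nm_inv_form (σ := RingHom.id k) hJ fun x => rfl
  exact ⟨C, hC, fun g => hc g.1.1 g.1.2⟩

theorem nm_c (h : OF J₀) (s : ℕ) (ha : a ≠ 0) (μ₁ : Measure k) (μ₂ : Measure (ι → k)) :
    Continuous (ltO h s ha μ₁ μ₂).nm :=
  continuous_nm.comp (continuous_subtype_val.comp continuous_subtype_val)

theorem nm_cpt [ProperSpace k] (h : OF J₀) (s : ℕ) (ha : a ≠ 0) (μ₁ : Measure k)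
    (μ₂ : Measure (ι → k))
    (hcl : IsClosed (EUF (RingHom.id k) 1 (hyp (s + 2) 1 J₀) :
      Set (FormGroup (RingHom.id k) (hyp (s + 2) 1 J₀)))) (C : ℝ) :
    IsCompact {g | (ltO h s ha μ₁ μ₂).nm g ≤ C} := by
  have hF : IsClosed (FormGroup (RingHom.id k) (hyp (s + 2) 1 J₀) :
      Set (SpecialLinearGroup (Idx (s + 2) ι) k)) := H303.isClosed_formGroup continuous_id _
  have h1 := nm_cpt_SL hF C
  have h2 : {g : SpecialLinearGroup (Idx (s + 2) ι) k |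
      g ∈ FormGroup (RingHom.id k) (hyp (s + 2) 1 J₀) ∧ nmM (ta g) ≤ C} ⊆
      {g | nmM (ta g) ≤ C} := fun g hg => hg.2
  have e := hF.isClosedEmbedding_subtypeVal.comp hcl.isClosedEmbedding_subtypeVal
  have h3 := e.isCompact_preimage h1
  have e2 : {g | (ltO h s ha μ₁ μ₂).nm g ≤ C} = (Subtype.val ∘ Subtype.val :
      EUF (RingHom.id k) 1 (hyp (s + 2) 1 J₀) → SpecialLinearGroup (Idx (s + 2) ι) k) ⁻¹'
      {g | g ∈ FormGroup (RingHom.id k) (hyp (s + 2) 1 J₀) ∧ nmM (ta g) ≤ C} := by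
    ext g
    exact ⟨fun hg => ⟨g.1.2, hg⟩, fun hg => hg.2⟩
  rw [e2]
  exact h3

theorem nrm_sq (ha1 : ‖a‖ < 1) : ‖a ^ 2‖ < 1 := by
  rw [norm_pow]
  exact pow_lt_one₀ (norm_nonneg _) ha1 two_ne_zero

theorem nm_b1 (h : OF J₀) (s : ℕ) (ha : a ≠ 0) (ha1 : ‖a‖ < 1) (μ₁ : Measure k)
    (μ₂ : Measure (ι → k)) : Tendsto (fun N : ℕ => (ltO h s ha μ₁ μ₂).nm
      ((ltO h s ha μ₁ μ₂).b1 ^ N)) atTop atTop := by
  refine (nm_torF (ι := ι) (pow_ne_zero 2 ha) (nrm_sq ha1)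
    (Pi.single (0 : Fin (s + 2)) (1 : ℤ)) 0 (Pi.single_eq_same _ _)).congr fun N => ?_
  change _ = nmM (ta (b1O h s ha ^ N).1.1)
  rw [Subgroup.coe_pow, Subgroup.coe_pow]
  rfl

theorem nm_b2 (h : OF J₀) (s : ℕ) (ha : a ≠ 0) (ha1 : ‖a‖ < 1) (μ₁ : Measure k)
    (μ₂ : Measure (ι → k)) : Tendsto (fun N : ℕ => (ltO h s ha μ₁ μ₂).nm
      ((ltO h s ha μ₁ μ₂).b2 ^ N)) atTop atTop := by
  refine (nm_torF (ι := ι) (pow_ne_zero 2 ha) (nrm_sq ha1)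
    (fun _ : Fin (s + 2) => (1 : ℤ)) 0 rfl).congr fun N => ?_
  change _ = nmM (ta (b2O h s ha ^ N).1.1)
  rw [Subgroup.coe_pow, Subgroup.coe_pow]
  rfl

theorem z_comm (h : OF J₀) (s : ℕ) (ha : a ≠ 0) (μ₁ : Measure k) (μ₂ : Measure (ι → k)) :
    ∀ z ∈ (ltO h s ha μ₁ μ₂).Z, ∀ g, z * g = g * z := by
  intro z hz g
  exact Subtype.ext (Subtype.ext (scal_comm hz g.1.1))

theorem z_P (h : OF J₀) (s : ℕ) (ha : a ≠ 0) (μ₁ : Measure k) (μ₂ : Measure (ι → k)) :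
    ∀ z ∈ (ltO h s ha μ₁ μ₂).Z, ∀ x : SGr (RingHom.id k) (hyp (s + 2) 1 J₀) 1, z • x = x := by
  intro z hz x
  have hz' : z.1.1 ∈ scal k (Idx (s + 2) ι) := hz
  exact smul_scal hz' x

theorem z_M (h : OF J₀) (s : ℕ) (ha : a ≠ 0) (μ₁ : Measure k) (μ₂ : Measure (ι → k)) :
    ∀ z ∈ (ltO h s ha μ₁ μ₂).Z, ∀ x : SGr (RingHom.id k) (hyp (s + 2) 1 J₀) (s + 2),
      z • x = x := by
  intro z hz x
  have hz' : z.1.1 ∈ scal k (Idx (s + 2) ι) := hz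
  exact smul_scal hz' x

/-- **`prox1`** -/
theorem prox1 [ProperSpace k] (h : OF J₀) (s : ℕ) (ha : a ≠ 0) (ha1 : ‖a‖ < 1) (μ₁ : Measure k)
    (μ₂ : Measure (ι → k)) (hW : Wf (RingHom.id k) 1 (hyp (s + 2) 1 J₀) (s + 2))
    (hcl : IsClosed (EUF (RingHom.id k) 1 (hyp (s + 2) 1 J₀) :
      Set (FormGroup (RingHom.id k) (hyp (s + 2) 1 J₀)))) :
    ∀ Γ : Subgroup (EUF (RingHom.id k) 1 (hyp (s + 2) 1 J₀)), Covol Γ →
      ∀ (z : SGr (RingHom.id k) (hyp (s + 2) 1 J₀) 1)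
        (D : Set (SGr (RingHom.id k) (hyp (s + 2) 1 J₀) 1)), IsCompact D →
      (∀ y ∈ D, (ltO h s ha μ₁ μ₂).opp1 y z) →
      ∀ U : Set (SGr (RingHom.id k) (hyp (s + 2) 1 J₀) 1), IsOpen U → U.Nonempty →
        ∃ γ ∈ Γ, ∀ y ∈ D, γ • y ∈ U := by
  intro Γ hΓ z D hD hDo U hU hUn
  exact prox1G hW.fo continuous_id hW.wi (by omega)
    (fun g hg => Subgroup.mem_subgroupOf.2 hg) (pow_ne_zero 2 ha) (nrm_sq ha1) rfl
    (h.tor_mem s ha _) hcl Γ hΓ z D hD hDo U hU hUn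

/-- **`prox2`** -/
theorem prox2 [ProperSpace k] (h : OF J₀) (s : ℕ) (ha : a ≠ 0) (ha1 : ‖a‖ < 1) (μ₁ : Measure k)
    (μ₂ : Measure (ι → k)) (hW : Wf (RingHom.id k) 1 (hyp (s + 2) 1 J₀) (s + 2))
    (hcl : IsClosed (EUF (RingHom.id k) 1 (hyp (s + 2) 1 J₀) :
      Set (FormGroup (RingHom.id k) (hyp (s + 2) 1 J₀)))) :
    ∀ Γ : Subgroup (EUF (RingHom.id k) 1 (hyp (s + 2) 1 J₀)), Covol Γ →
      ∀ (z : SGr (RingHom.id k) (hyp (s + 2) 1 J₀) (s + 2))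
        (D : Set (SGr (RingHom.id k) (hyp (s + 2) 1 J₀) (s + 2))), IsCompact D →
      (∀ y ∈ D, (ltO h s ha μ₁ μ₂).opp2 y z) →
      ∀ U : Set (SGr (RingHom.id k) (hyp (s + 2) 1 J₀) (s + 2)), IsOpen U → U.Nonempty →
        ∃ γ ∈ Γ, ∀ y ∈ D, γ • y ∈ U := by
  intro Γ hΓ z D hD hDo U hU hUn
  exact prox2G hW.fo continuous_id hW.wi
    (fun g hg => Subgroup.mem_subgroupOf.2 hg) (pow_ne_zero 2 ha) (nrm_sq ha1) rfl
    (h.tor_mem s ha _) hcl Γ hΓ z D hD hDo U hU hUn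

end letters

end Vale.Agent.P092.H188.O
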