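import Mathlib

/-!
P092 (helper188), [SX-ROOT]: a non-archimedean local field has a finite extension which contains all
`m`-th roots of its elements (`m` prime to the characteristic); with Frobenius for all exponents.
-/

set_option linter.all false

open Filter Topology Polynomial

namespace Vale.Agent.P092.H188

/-- Finitely many classes modulo `m`-th powers. -/
theorem fin_pow {k : Type*} [NontriviallyNormedField k] [ProperSpace k] {m : ℕ} (hm : 0 < m)
    (hmk : (m : k) ≠ 0) :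
    ∃ R : Finset k, ∀ x : k, x ≠ 0 → ∃ r ∈ R, ∃ z : k, x = r * z ^ m := by
  classical
  have hS : Set.range (fun z : k => z ^ m) ∈ 𝓝 (1 : k) := by
    have hd : HasStrictDerivAt (fun z : k => z ^ m) ((m : k) * 1 ^ (m - 1)) 1 :=
      hasStrictDerivAt_pow m 1
    have h1 : map (fun z : k => z ^ m) (𝓝 1) = 𝓝 ((1 : k) ^ m) :=
      hd.map_nhds_eq (by simpa using hmk)
    rw [one_pow] at h1
    rw [← h1]
    exact Filter.range_mem_map
  obtain ⟨c, hc⟩ := NormedField.exists_one_lt_norm k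
  have hc0 : c ≠ 0 := fun h => by
    rw [h, norm_zero] at hc
    linarith
  have hb : 1 < ‖c‖ ^ m := one_lt_pow₀ hc hm.ne'
  set A : Set k := {x | 1 ≤ ‖x‖ ∧ ‖x‖ ≤ ‖c‖ ^ m} with hA
  have hAc : IsCompact A := by
    have h1 : IsCompact (Metric.closedBall (0 : k) (‖c‖ ^ m)) := isCompact_closedBall _ _
    refine h1.of_isClosed_subset ?_ fun x hx => by simpa using hx.2
    exact (isClosed_le continuous_const continuous_norm).inter
      (isClosed_le continuous_norm continuous_const)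
  obtain ⟨R, hR, hcov⟩ := hAc.elim_nhds_subcover
    (fun r => (fun x => r⁻¹ * x) ⁻¹' Set.range (fun z : k => z ^ m)) fun r hr => by
      have hr0 : r ≠ 0 := fun h => by
        have := hr.1
        rw [h, norm_zero] at this
        linarith
      have h2 : Tendsto (fun x : k => r⁻¹ * x) (𝓝 r) (𝓝 1) := by
        have h3 : ContinuousAt (fun x : k => r⁻¹ * x) r := by fun_prop
        have h4 := h3.tendsto
        simpa [inv_mul_cancel₀ hr0] using h4
      exact h2 hS
  refine ⟨R, fun x hx => ?_⟩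
  obtain ⟨j, hj1, hj2⟩ := exists_mem_Ico_zpow (norm_pos_iff.2 hx) hb
  have hpos : 0 < (‖c‖ ^ m) ^ j := zpow_pos (by linarith) j
  have hcj : (c ^ j) ^ m ≠ 0 := pow_ne_zero _ (zpow_ne_zero _ hc0)
  have hn : ‖(c ^ j) ^ m‖ = (‖c‖ ^ m) ^ j := by
    rw [norm_pow, norm_zpow, ← zpow_natCast, ← zpow_natCast, ← zpow_mul, ← zpow_mul, mul_comm]
  have hmem : x / (c ^ j) ^ m ∈ A := by
    constructor
    · rw [norm_div, hn, le_div_iff₀ hpos, one_mul]
      exact hj1
    · rw [norm_div, hn, div_le_iff₀ hpos]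
      rw [zpow_add_one₀ (by linarith : ‖c‖ ^ m ≠ 0)] at hj2
      rw [mul_comm]
      exact hj2.le
  obtain ⟨r, hr, hrx⟩ : ∃ r ∈ R, x / (c ^ j) ^ m ∈
      (fun x => r⁻¹ * x) ⁻¹' Set.range (fun z : k => z ^ m) := by
    have := hcov hmem
    simpa using this
  obtain ⟨z, hz⟩ := hrx
  have hr0 : r ≠ 0 := fun h => by
    have := (hR r hr).1
    rw [h, norm_zero] at this
    linarith
  refine ⟨r, hr, z * c ^ j, ?_⟩
  have hz' : z ^ m = r⁻¹ * (x / (c ^ j) ^ m) := hz
  rw [mul_pow, hz']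
  field_simp

/-- All `m`-th roots in a finite extension. -/
theorem root_ultra {k : Type} [NontriviallyNormedField k] [ProperSpace k] [IsUltrametricDist k]
    {m : ℕ} (hm : 0 < m) (hmk : (m : k) ≠ 0) :
    ∃ (l : Type) (_ : NontriviallyNormedField l), ProperSpace l ∧ IsUltrametricDist l ∧
      ∃ φ : k →+* l, (∀ x, ‖φ x‖ = ‖x‖) ∧ ∀ x, ∃ y : l, y ^ m = φ x := by
  classical
  obtain ⟨R, hR⟩ := fin_pow (k := k) hm hmk
  set P : k[X] := ∏ r ∈ R, (X ^ m - C r) with hP
  have hP0 : P ≠ 0 := Finset.prod_ne_zero_iff.2 fun r _ => X_pow_sub_C_ne_zero hm r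
  let l := P.SplittingField
  letI i1 : NontriviallyNormedField l := spectralNorm.nontriviallyNormedField k l
  letI i2 : NormedSpace k l := spectralNorm.normedSpace k l
  haveI i3 : FiniteDimensional k l := inferInstanceAs (FiniteDimensional k P.SplittingField)
  have hp : ProperSpace l := FiniteDimensional.proper k l
  have hu : IsUltrametricDist l :=
    IsUltrametricDist.isUltrametricDist_of_isNonarchimedean_norm isNonarchimedean_spectralNorm
  refine ⟨l, i1, hp, hu, algebraMap k l, fun x => spectralNorm_extends x, fun x => ?_⟩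
  by_cases hx : x = 0
  · exact ⟨0, by rw [hx, map_zero, zero_pow hm.ne']⟩
  obtain ⟨r, hr, z, hz⟩ := hR x hx
  have hs : (P.map (algebraMap k l)).Splits := SplittingField.splits P
  have hd : (X ^ m - C r) ∣ P := Finset.dvd_prod_of_mem _ hr
  have hs2 : ((X ^ m - C r).map (algebraMap k l)).Splits :=
    hs.of_dvd (Polynomial.map_ne_zero hP0) (Polynomial.map_dvd _ hd)
  obtain ⟨y, hy⟩ := hs2.exists_eval_eq_zero (by
    rw [Polynomial.degree_map, degree_X_pow_sub_C hm]
    exact_mod_cast hm.ne')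
  refine ⟨y * algebraMap k l z, ?_⟩
  simp only [Polynomial.map_sub, Polynomial.map_pow, map_X, map_C, eval_sub, eval_pow, eval_X,
    eval_C, sub_eq_zero] at hy
  rw [mul_pow, hy, hz, map_mul, map_pow]

/-- All `n`-th roots of `φ x`, `φ` a power of Frobenius followed by a finite extension. -/
theorem root_ultra' {k : Type} [NontriviallyNormedField k] [ProperSpace k] [IsUltrametricDist k]
    {n : ℕ} (hn : 0 < n) :
    ∃ (l : Type) (_ : NontriviallyNormedField l), ProperSpace l ∧ IsUltrametricDist l ∧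
      ∃ φ : k →+* l, (∃ s : ℕ, 0 < s ∧ ∀ x, ‖φ x‖ = ‖x‖ ^ s) ∧ ∀ x, ∃ y : l, y ^ n = φ x := by
  obtain ⟨p, hp⟩ := ExpChar.exists k
  rcases hp with _ | ⟨hp⟩
  · obtain ⟨l, i1, h1, h2, φ, h3, h4⟩ := root_ultra (k := k) hn (by exact_mod_cast hn.ne')
    exact ⟨l, i1, h1, h2, φ, ⟨1, one_pos, fun x => by rw [h3, pow_one]⟩, h4⟩
  · haveI : Fact p.Prime := ⟨hp⟩
    haveI : ExpChar k p := ExpChar.prime hp
    obtain ⟨a, m, hpm, hnm⟩ := Nat.exists_eq_pow_mul_and_not_dvd hn.ne' p hp.ne_one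
    have hm : 0 < m := Nat.pos_of_ne_zero fun h => by simp [h] at hpm
    have hmk : (m : k) ≠ 0 := fun h => hpm ((CharP.cast_eq_zero_iff k p m).1 h)
    obtain ⟨l, i1, h1, h2, φ, h3, h4⟩ := root_ultra (k := k) hm hmk
    refine ⟨l, i1, h1, h2, φ.comp (iterateFrobenius k p a), ⟨p ^ a, pow_pos hp.pos a,
      fun x => ?_⟩, fun x => ?_⟩
    · rw [RingHom.comp_apply, iterateFrobenius_def, h3, norm_pow]
    · obtain ⟨y, hy⟩ := h4 x
      refine ⟨y, ?_⟩
      rw [hnm, RingHom.comp_apply, iterateFrobenius_def, mul_comm, pow_mul, hy, map_pow]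

end Vale.Agent.P092.H188
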